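import Vale.Agent.P158.Mass.Local

/-!
The deterministic count: the vertices of bigeodesics in a box are covered by sites, up to a
number of vertices linear in the scale for each chord.
-/

open MeasureTheory Filter Topology
open scoped ENNReal

namespace Vale.Agent.P158.Mass

/-- The parameters of one run of the supply of sites. -/
structure Run where
  /-- frame window of chords -/
  γ₀ : ℝ
  /-- length constant of chords -/
  C : ℝ
  /-- slope and window length bound -/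
  A : ℝ
  /-- slope tolerance -/
  ε : ℝ
  /-- rigidity -/
  δ : ℝ
  /-- entrance threshold -/
  r₁ : ℝ
  /-- heavy threshold -/
  r : ℝ
  /-- error rate -/
  η : ℝ
  /-- box factor -/
  K : ℕ
  /-- level spacing factor -/
  K₀ : ℕ
  /-- crossing steps -/
  R : ℕ
  /-- strip -/
  L : ℕ
  /-- box -/
  N : ℕ
  /-- tolerances of the chord events -/
  es : Fin 13 → ℝ
  /-- thresholds of the chord events -/
  rs : Fin 13 → ℝ
  /-- crossing steps of the chord events -/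
  Rs : Fin 13 → ℕ

namespace Run

variable (U : Run)

/-- The number of slopes. -/
noncomputable def mu : ℕ := ⌈U.A / U.ε⌉₊ + 1

/-- The parameters of the sites. -/
noncomputable def P : SiteP := runP U.R U.R U.δ U.r U.ε U.K₀ U.mu U.L U.N

/-- The scale of the windows. -/
noncomputable def n : ℕ := 3 * U.P.Lam

/-- The relative width of the tubes. -/
noncomputable def rho : ℝ := U.ε / (3 * ((U.mu : ℝ) + 1) * U.K₀)

/-- The requirements on the parameters. -/
structure OK : Prop where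
  hγ : 0 < U.γ₀
  hγ1 : U.γ₀ ≤ 1
  hK : 8 ≤ U.γ₀ * U.K
  hA : 0 < U.A
  hε : 0 < U.ε
  hK₀ : 2 ≤ U.K₀
  hL : 2 ≤ U.L
  hR : U.R < U.L
  hN : 2 * U.R + 2 * U.P.Lam + U.n ≤ U.N
  hfit : 4 * (U.A * (3 * (U.P.Lam : ℤ)) + U.P.Lam + 2) ≤ 3 * (U.N : ℝ)
  hη : 0 < U.η
  hes : ∀ i, 0 ≤ U.es i
  hrs : ∀ i, U.r₁ ≤ U.rs i
  hRs : ∀ i, U.Rs i ≤ U.R
  hpair : ∀ i j, i < j → U.es i + 4 * (2 * (U.Rs i : ℝ) + 1) ^ 2 * U.es j ≤ U.η
  hlong : 3 * U.C * (2 * (U.R : ℝ) + 1) ^ 2 ≤ U.η * U.A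

/-- Something happens at `x` in a configuration: few heavy edges, a wild segment or a site. -/
def ev (k : ℤ) (x : V) (t : Conf) : Prop :=
  ¬ FewLow U.r U.L x t ∨ shift x t ∈ wildSite k U.R U.r₁ U.A U.rho U.n ∨
    ∃ u ∈ Finset.range (⌈U.A / U.ε⌉₊ + 1),
      t ∈ goodAt U.P U.r₁ k (stripLev U.K₀ U.L u) (slopeGrid U.A U.ε u) x

/-- The index set of the symmetries and frames. -/
abbrev Frame := Fin frameSyms.length × Bool

/-- The frame of an index. -/
def fk (q : Frame) : ℤ := if q.2 then 1 else 0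

/-- The symmetry of an index. -/
def fs (q : Frame) : LatSym := frameSyms.get q.1

/-- The triples at which something happens. -/
noncomputable def hits (t : Conf) : Finset (Frame × V) :=
  open Classical in
  ((Finset.univ : Finset Frame) ×ˢ box (2 * U.N)).filter fun q =>
    U.ev (fk q.1) q.2 ((fs q.1).symm.act t)

/-- The vertices near such a triple. -/
noncomputable def covered (t : Conf) : Finset V :=
  (U.hits t).biUnion fun q => (box U.R).image fun d => (fs q.1).vmap.symm (q.2 + d)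

lemma card_covered (t : Conf) :
    (U.covered t).card ≤ (2 * U.R + 1) ^ 2 * (U.hits t).card := by
  refine Finset.card_biUnion_le.trans ?_
  refine (Finset.sum_le_card_nsmul _ _ _ fun q _ => Finset.card_image_le).trans ?_
  rw [card_box, smul_eq_mul, mul_comm]

variable {U}

lemma fk_cases (q : Frame) : fk q = 0 ∨ fk q = 1 := by
  unfold fk; split_ifs <;> simp

lemma fs_mem (q : Frame) : fs q ∈ frameSyms := List.get_mem _ _

lemma exists_frame {σ : LatSym} (hσ : σ ∈ frameSyms) {k : ℤ} (hk : k = 0 ∨ k = 1) :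
    ∃ q : Frame, fs q = σ ∧ fk q = k := by
  obtain ⟨i, hi⟩ := List.get_of_mem hσ
  exact ⟨(i, decide (k = 1)), hi, by rcases hk with rfl | rfl <;> simp [fk]⟩

lemma card_frame : Fintype.card Frame = 12 := by simp [frameSyms]

lemma OK.hK8 (h : U.OK) : (8 : ℤ) ≤ U.K := by
  have h2 : (8 : ℝ) ≤ U.K := h.hK.trans (mul_le_of_le_one_left (Nat.cast_nonneg _) h.hγ1)
  exact_mod_cast h2

lemma strip_le (U : Run) (h : U.OK) {u : ℕ} (hu : u ∈ Finset.range (⌈U.A / U.ε⌉₊ + 1)) :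
    0 ≤ stripLev U.K₀ U.L u ∧ stripLev U.K₀ U.L u + 2 * (U.L : ℤ) ≤ U.P.Lam := by
  refine ⟨Int.natCast_nonneg _, ?_⟩
  have hu' : u + 1 ≤ U.mu := Finset.mem_range.1 hu
  have h2 := h.hK₀
  have : (u + 1) * U.K₀ * U.L + 2 * U.L ≤ (U.mu + 1) * U.K₀ * U.L := by
    have h3 : (u + 1) * U.K₀ ≤ U.mu * U.K₀ := Nat.mul_le_mul_right _ hu'
    have e : (U.mu + 1) * U.K₀ = U.mu * U.K₀ + U.K₀ := by ring
    have : (u + 1) * U.K₀ + 2 ≤ (U.mu + 1) * U.K₀ := by omega
    calc (u + 1) * U.K₀ * U.L + 2 * U.L = ((u + 1) * U.K₀ + 2) * U.L := by ring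
      _ ≤ _ := Nat.mul_le_mul_right _ this
  show ((((u + 1) * U.K₀ * U.L : ℕ) : ℤ)) + 2 * (U.L : ℤ) ≤ (((U.mu + 1) * U.K₀ * U.L : ℕ) : ℤ)
  exact_mod_cast this

lemma rho_mul_n (h : U.OK) : U.rho * (U.n : ℝ) = U.ε * U.L := by
  have h1 : (0 : ℝ) < U.K₀ := by exact_mod_cast (show 0 < U.K₀ by have := h.hK₀; omega)
  have h2 : (0 : ℝ) < (U.mu : ℝ) + 1 := by positivity
  simp only [rho, n, P, runP]
  push_cast
  field_simp

/-- The slope index nearest to a slope. -/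
lemma exists_slope_index {A ε s : ℝ} (hε : 0 < ε) (hs : |s| ≤ A) :
    ∃ u ∈ Finset.range (⌈A / ε⌉₊ + 1), |s - slopeGrid A ε u| ≤ ε := by
  obtain ⟨h1, h2⟩ := abs_le.1 hs
  have h0 : 0 ≤ (s + A + ε) / (2 * ε) := div_nonneg (by linarith) (by linarith)
  refine ⟨⌊(s + A + ε) / (2 * ε)⌋₊, Finset.mem_range.2 ?_, ?_⟩
  · have hle : (s + A + ε) / (2 * ε) < ((⌈A / ε⌉₊ + 1 : ℕ) : ℝ) := by
      rw [div_lt_iff₀ (by linarith)]
      have := Nat.le_ceil (A / ε)
      rw [div_le_iff₀ hε] at this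
      push_cast
      linarith
    exact (Nat.floor_lt h0).2 hle
  · have h3 := Nat.floor_le h0
    have h4 := Nat.lt_floor_add_one ((s + A + ε) / (2 * ε))
    rw [le_div_iff₀ (by linarith)] at h3
    rw [div_lt_iff₀ (by linarith)] at h4
    rw [abs_le]
    unfold slopeGrid
    constructor <;> linarith

lemma cross_unique {k c : ℤ} {γ : ℤ → V} {I₀ I₁ i j i' j' : ℤ} {R R' : ℕ}
    (h : Cross k γ I₀ I₁ c R i j) (h' : Cross k γ I₀ I₁ c R' i' j') : i = i' := by
  by_contra hne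
  rcases lt_or_gt_of_ne hne with hlt | hlt
  · have := h'.before i h.lo.le hlt
    have := h.first
    omega
  · have := h.before i' h'.lo.le hlt
    have := h'.first
    omega

/-- The key step: the vertices near the crossings of one frame, apart from few. -/
lemma frame_bad (h : U.OK) {i j : Fin 13} {k : ℤ} (hk : k = 0 ∨ k = 1) {t : Conf} {γ : ℤ → V}
    {I₀ I₁ : ℤ} (hch : Chord t γ ((U.K * U.N : ℕ) : ℤ) I₀ I₁)
    (hle : I₀ ≤ I₁) (hlen : ((I₁ - I₀ : ℤ) : ℝ) ≤ U.C * (U.K * U.N : ℕ))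
    (he₀ : (lev k (γ I₀) : ℝ) ≤ -U.γ₀ * (U.K * U.N : ℕ))
    (he₁ : U.γ₀ * (U.K * U.N : ℕ) ≤ (lev k (γ I₁) : ℝ))
    (hlev : (({c : ℤ | |(c : ℝ)| ≤ U.γ₀ * (U.K * U.N : ℕ) / 2 ∧
        ¬∃ a b, Cross k γ I₀ I₁ c (U.Rs j) a b ∧
          U.rs j ≤ wt t (γ (a - 1)) (γ a)}.ncard : ℕ) : ℝ) ≤ U.es j * (U.K * U.N : ℕ)) :
    ∃ S : Finset V, (S.card : ℝ) ≤ (4 * (2 * (U.Rs i : ℝ) + 1) ^ 2 * U.es j +
        3 * U.C * (2 * (U.R : ℝ) + 1) ^ 2 / U.A) * (U.K * U.N : ℕ) ∧
      ∀ (m c a b : ℤ), InSq U.N (γ m) → Cross k γ I₀ I₁ c (U.Rs i) a b →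
        U.rs i ≤ wt t (γ (a - 1)) (γ a) → |m - a| ≤ (U.Rs i : ℤ) →
        γ m ∈ S ∨ ∃ x ∈ box (2 * U.N), U.ev k x t ∧ InSq U.R (γ m - x) := by
  classical
  set B : ℤ := ((U.K * U.N : ℕ) : ℤ) with hB
  have hK8 := h.hK8
  have hN := h.hN
  have hRi := h.hRs i
  have hRj := h.hRs j
  have hRL := h.hR
  have hadj := hch.adjOn
  have hnval : (U.n : ℤ) = 3 * (U.P.Lam : ℤ) := by simp [n]
  have hγN : (8 : ℝ) * U.N ≤ U.γ₀ * (U.K * U.N : ℕ) := by
    push_cast
    nlinarith [h.hK, Nat.cast_nonneg (α := ℝ) U.N]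
  have hend₀ : lev k (γ I₀) ≤ -(8 * (U.N : ℤ)) := by
    have : (lev k (γ I₀) : ℝ) ≤ ((-(8 * (U.N : ℤ)) : ℤ) : ℝ) := by push_cast at *; linarith
    exact_mod_cast this
  have hend₁ : 8 * (U.N : ℤ) ≤ lev k (γ I₁) := by
    have : ((8 * (U.N : ℤ) : ℤ) : ℝ) ≤ (lev k (γ I₁) : ℝ) := by push_cast at *; linarith
    exact_mod_cast this
  set bad := {c : ℤ | |(c : ℝ)| ≤ U.γ₀ * (U.K * U.N : ℕ) / 2 ∧
    ¬∃ a b, Cross k γ I₀ I₁ c (U.Rs j) a b ∧ U.rs j ≤ wt t (γ (a - 1)) (γ a)} with hbad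
  have hbadfin : bad.Finite := (finite_abs_le_real _).subset fun c hc => hc.1
  have hL1 : 2 * (U.L : ℤ) ≤ U.P.Lam := by
    have := strip_le U h (u := 0) (by simp)
    omega
  have hRn : (U.R : ℤ) < U.n := by omega
  set S := (Finset.Icc (-(3 * (U.N : ℤ))) (3 * U.N)).filter fun c =>
    ∃ a b, Cross k γ I₀ I₁ c (U.Rs i) a b ∧ U.rs i ≤ wt t (γ (a - 1)) (γ a)
  have hS : ∀ c ∈ S, ∃ a b wa wb, Cross k γ I₀ I₁ c U.R a b ∧
      Cross k γ I₀ I₁ c (U.Rs i) a b ∧ U.r₁ ≤ wt t (γ (a - 1)) (γ a) ∧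
      I₀ ≤ wa ∧ wb ≤ I₁ ∧ Win k γ c U.n a b wa wb := by
    intro c hc
    obtain ⟨hc', a, b, hab, hheavy⟩ := Finset.mem_filter.1 hc
    rw [Finset.mem_Icc] at hc'
    obtain ⟨wa, wb, h1, h2, h3⟩ := exists_win hk hadj (cross_mono hRi hab) (n := (U.n : ℤ)) hRn
      (by omega) (by omega)
    exact ⟨a, b, wa, wb, cross_mono hRi hab, hab, (h.hrs i).trans hheavy, h1, h2, h3⟩
  choose! ia ib wa wb hcR hcRi hheavy hwa hwb hwin using hS
  set long := S.filter fun c => U.A * (U.n : ℝ) < ((wb c - wa c : ℤ) : ℝ) with hlongdef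
  set T := S.filter fun c => ((wb c - wa c : ℤ) : ℝ) ≤ U.A * (U.n : ℝ) ∧
    shift (γ (ia c)) t ∉ wildSite k U.R U.r₁ U.A U.rho U.n with hT
  have hTu : ∀ c ∈ T, ∃ s u, |s| ≤ U.A ∧ u ∈ Finset.range (⌈U.A / U.ε⌉₊ + 1) ∧
      |s - slopeGrid U.A U.ε u| ≤ U.ε ∧ Tube k γ (γ (ia c)) (wa c) (wb c) s (U.ε * U.L) := by
    intro c hc
    obtain ⟨hcS, hlen', hnw⟩ := Finset.mem_filter.1 hc
    obtain ⟨s, hs, htube⟩ := tube_of_not_wild hch (hcR c hcS) (hheavy c hcS) (hwin c hcS)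
      (hwa c hcS) (hwb c hcS) hlen' hnw
    obtain ⟨u, hu, hsu⟩ := exists_slope_index h.hε hs
    exact ⟨s, u, hs, hu, hsu, rho_mul_n h ▸ htube⟩
  choose! sl ui hsA huR hsu htube using hTu
  set lo := fun c => c - stripLev U.K₀ U.L (ui c) - (U.P.Lam : ℤ) with hlo
  set up := fun c => c - stripLev U.K₀ U.L (ui c) + (U.P.Lam : ℤ) with hup
  set killed := T.filter fun c => lo c ∈ bad ∨ up c ∈ bad with hkdef
  -- the count of long windows
  have hn0 : (0 : ℝ) < U.n := by exact_mod_cast (show 0 < U.n by omega)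
  have hlongcard : (long.card : ℝ) * (U.A * U.n) ≤ (2 * (U.n : ℝ) + 1) * (I₁ - I₀ : ℤ) := by
    have h1 : (long.card : ℝ) * (U.A * U.n) ≤ ∑ c ∈ long, ((wb c - wa c : ℤ) : ℝ) := by
      have := Finset.card_nsmul_le_sum long (fun c => ((wb c - wa c : ℤ) : ℝ)) (U.A * U.n)
        fun c hc => (Finset.mem_filter.1 hc).2.le
      rwa [nsmul_eq_mul] at this
    have h2 : ∀ c ∈ long, (wb c - wa c : ℤ) =
        ∑ m ∈ Finset.Ico I₀ I₁, if wa c ≤ m ∧ m < wb c then (1 : ℤ) else 0 := by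
      intro c hc
      have hcS := (Finset.mem_filter.1 hc).1
      have := hwa c hcS
      have := hwb c hcS
      have := (hwin c hcS).lt_i
      have := (hwin c hcS).j_lt
      have := (hcR c hcS).le
      rw [Finset.sum_boole]
      have e : (Finset.Ico I₀ I₁).filter (fun m => wa c ≤ m ∧ m < wb c)
          = Finset.Ico (wa c) (wb c) := by
        ext m; simp only [Finset.mem_filter, Finset.mem_Ico]; omega
      rw [e, Int.card_Ico]
      omega
    have h3 : ∀ m ∈ Finset.Ico I₀ I₁,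
        (∑ c ∈ long, if wa c ≤ m ∧ m < wb c then (1 : ℤ) else 0) ≤ 2 * (U.n : ℤ) + 1 := by
      intro m _
      rw [Finset.sum_boole]
      have hsub : long.filter (fun c => wa c ≤ m ∧ m < wb c)
          ⊆ Finset.Icc (lev k (γ m) - U.n) (lev k (γ m) + U.n) := by
        intro c hc
        obtain ⟨hc1, hc2, hc3⟩ := Finset.mem_filter.1 hc
        have hcS := (Finset.mem_filter.1 hc1).1
        have := (hwin c hcS).band (hcR c hcS).le hc2 hc3.le
        rw [Finset.mem_Icc]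
        omega
      have := Finset.card_le_card hsub
      rw [Int.card_Icc] at this
      omega
    have h4 : (∑ c ∈ long, (wb c - wa c : ℤ)) ≤ (2 * (U.n : ℤ) + 1) * (I₁ - I₀) := by
      rw [Finset.sum_congr rfl h2, Finset.sum_comm]
      refine (Finset.sum_le_card_nsmul _ _ _ h3).trans ?_
      rw [Int.card_Ico, nsmul_eq_mul, mul_comm]
      rw [Int.toNat_of_nonneg (by omega)]
    have h5 : ((∑ c ∈ long, (wb c - wa c : ℤ) : ℤ) : ℝ) ≤
        (((2 * (U.n : ℤ) + 1) * (I₁ - I₀) : ℤ) : ℝ) := Int.cast_le.2 h4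
    push_cast at h1 h5 ⊢
    linarith
  -- the count of killed levels
  have hkill : killed.card ≤ 4 * hbadfin.toFinset.card := by
    let F : ℤ → ℤ × Bool × Bool := fun c =>
      if lo c ∈ bad then (lo c, true, decide (ui c % 2 = 0))
      else (up c, false, decide (ui c % 2 = 0))
    have hmaps : ∀ c ∈ killed,
        F c ∈ hbadfin.toFinset ×ˢ ((Finset.univ : Finset (Bool × Bool))) := by
      intro c hc
      obtain ⟨-, hc'⟩ := Finset.mem_filter.1 hc
      by_cases hl : lo c ∈ bad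
      · simp [F, hl]
      · simp [F, hl, hc'.resolve_left hl]
    have hinj : Set.InjOn F killed := by
      intro c₁ h₁ c₂ h₂ heq
      have h₁T := (Finset.mem_filter.1 (Finset.mem_coe.1 h₁)).1
      have h₂T := (Finset.mem_filter.1 (Finset.mem_coe.1 h₂)).1
      wlog h12 : c₁ ≤ c₂ generalizing c₁ c₂
      · exact (this h₂ h₁ heq.symm h₂T h₁T (le_of_not_ge h12)).symm
      have hd : c₁ - stripLev U.K₀ U.L (ui c₁) = c₂ - stripLev U.K₀ U.L (ui c₂) ∧
          (ui c₁ % 2 = 0 ↔ ui c₂ % 2 = 0) := by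
        by_cases p : lo c₁ ∈ bad <;> by_cases q : lo c₂ ∈ bad <;>
          simp only [F, p, q, if_true, if_false, Prod.mk.injEq, decide_eq_decide] at heq
        · obtain ⟨e1, -, e2⟩ := heq
          exact ⟨by simp only [hlo] at e1; omega, e2⟩
        · exact absurd heq.2.1 (by simp)
        · exact absurd heq.2.1 (by simp)
        · obtain ⟨e1, -, e2⟩ := heq
          exact ⟨by simp only [hup] at e1; omega, e2⟩
      obtain ⟨hd1, hd2⟩ := hd
      have s₁ := (Finset.mem_filter.1 h₁T).1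
      have s₂ := (Finset.mem_filter.1 h₂T).1
      obtain ⟨a1, a2⟩ := strip_le U h (huR c₁ h₁T)
      obtain ⟨b1, b2⟩ := strip_le U h (huR c₂ h₂T)
      have hcl := slope_close hk hch (hcR c₁ s₁) (hcR c₂ s₂) (hwin c₁ s₁) (hwin c₂ s₂)
        (hwb c₁ s₁) (hwa c₂ s₂) (hwb c₂ s₂) h12 (by omega) hRn (htube c₁ h₁T) (htube c₂ h₂T)
      have hu : ui c₁ ≤ ui c₂ + 1 ∧ ui c₂ ≤ ui c₁ + 1 := by
        have e1 := abs_le.1 (hsu c₁ h₁T)
        have e2 := abs_le.1 (hsu c₂ h₂T)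
        have hn6 : 6 * (U.L : ℝ) ≤ U.n := by
          have : 6 * (U.L : ℤ) ≤ (U.n : ℤ) := by omega
          exact_mod_cast this
        have hcast : ((U.n : ℤ) : ℝ) = (U.n : ℝ) := Int.cast_natCast _
        rw [hcast] at hcl
        have hεn : 3 * (U.ε * U.L) ≤ U.ε / 2 * U.n := by nlinarith [h.hε]
        have hds : |sl c₁ - sl c₂| ≤ U.ε / 2 :=
          le_of_mul_le_mul_right (hcl.trans hεn) hn0
        rw [abs_le] at hds
        have hd' : |(ui c₁ : ℝ) - (ui c₂ : ℝ)| < 2 := by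
          have : |2 * U.ε * ((ui c₁ : ℝ) - (ui c₂ : ℝ))| ≤ 2 * U.ε * (5 / 4) := by
            rw [abs_le]
            unfold slopeGrid at e1 e2
            constructor <;> linarith
          rw [abs_mul, abs_of_pos (by linarith [h.hε] : (0 : ℝ) < 2 * U.ε)] at this
          have := le_of_mul_le_mul_left this (by linarith [h.hε])
          linarith
        rw [abs_lt] at hd'
        have l1 : ((ui c₁ : ℕ) : ℝ) < ((ui c₂ + 2 : ℕ) : ℝ) := by push_cast; linarith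
        have l2 : ((ui c₂ : ℕ) : ℝ) < ((ui c₁ + 2 : ℕ) : ℝ) := by push_cast; linarith
        rw [Nat.cast_lt] at l1 l2
        omega
      have : ui c₁ = ui c₂ := by omega
      rw [this] at hd1
      omega
    refine (Finset.card_le_card_of_injOn F hmaps hinj).trans ?_
    rw [Finset.card_product, Finset.card_univ]
    simp [Fintype.card_prod, mul_comm]
  refine ⟨(killed.biUnion fun c => (box (U.Rs i)).image fun d => γ (ia c) + d) ∪
    long.biUnion (fun c => (box U.R).image fun d => γ (ia c) + d), ?_, ?_⟩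
  · have hb1 : (killed.biUnion fun c => (box (U.Rs i)).image fun d => γ (ia c) + d).card
        ≤ killed.card * (2 * U.Rs i + 1) ^ 2 :=
      Finset.card_biUnion_le_card_mul _ _ _ fun c _ =>
        Finset.card_image_le.trans (card_box _).le
    have hb2 : (long.biUnion fun c => (box U.R).image fun d => γ (ia c) + d).card
        ≤ long.card * (2 * U.R + 1) ^ 2 :=
      Finset.card_biUnion_le_card_mul _ _ _ fun c _ =>
        Finset.card_image_le.trans (card_box _).le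
    have hcard := (Finset.card_union_le _ _).trans (add_le_add hb1 hb2)
    have hcard' : (((killed.biUnion fun c => (box (U.Rs i)).image fun d => γ (ia c) + d) ∪
        long.biUnion (fun c => (box U.R).image fun d => γ (ia c) + d)).card : ℝ) ≤
        (killed.card : ℝ) * (2 * (U.Rs i : ℝ) + 1) ^ 2 +
          (long.card : ℝ) * (2 * (U.R : ℝ) + 1) ^ 2 := by exact_mod_cast hcard
    refine hcard'.trans ?_
    rw [add_mul]
    refine add_le_add ?_ ?_
    · have hk4 : (killed.card : ℝ) ≤ 4 * (hbadfin.toFinset.card : ℝ) := by exact_mod_cast hkill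
      rw [← Set.ncard_eq_toFinset_card bad hbadfin] at hk4
      calc (killed.card : ℝ) * (2 * (U.Rs i : ℝ) + 1) ^ 2
          ≤ (4 * (U.es j * (U.K * U.N : ℕ))) * (2 * (U.Rs i : ℝ) + 1) ^ 2 :=
            mul_le_mul_of_nonneg_right (hk4.trans (by linarith)) (by positivity)
        _ = _ := by ring
    · have hpos : 0 < U.A * (U.n : ℝ) := mul_pos h.hA hn0
      have hn1 : (1 : ℝ) ≤ U.n := by exact_mod_cast (show 1 ≤ U.n by omega)
      have hlR : (long.card : ℝ) ≤ 3 * U.C * (U.K * U.N : ℕ) / U.A := by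
        rw [le_div_iff₀ h.hA]
        have h1 : (long.card : ℝ) * (U.A * U.n) ≤ 3 * U.n * (U.C * (U.K * U.N : ℕ)) := by
          refine hlongcard.trans ?_
          refine (mul_le_mul_of_nonneg_left hlen (by positivity)).trans ?_
          refine mul_le_mul_of_nonneg_right (by linarith) ?_
          refine le_trans ?_ hlen
          exact_mod_cast (show (0 : ℤ) ≤ I₁ - I₀ by omega)
        refine le_of_mul_le_mul_right ?_ hn0
        linarith
      refine (mul_le_mul_of_nonneg_right hlR (by positivity)).trans (le_of_eq ?_)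
      field_simp
  · intro m c a b hm hab hw hma
    have hrange := cross_range hk hadj (cross_mono hRi hab) le_rfl hab.le
    set x := γ a with hx
    have hstep : InSq U.R (γ m - x) ∧ InSq (U.Rs i) (γ m - x) := by
      have hh := abs_le.1 hma
      have h' : InSq |m - a| (γ m - γ a) := by
        rcases le_total a m with hle | hle
        · rw [abs_of_nonneg (by omega)]
          exact (inSq_steps (i₀ := a) (i₁ := m) (fun q _ _ => hch.line.adj q) le_rfl hle le_rfl).1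
        · rw [abs_of_nonpos (by omega), neg_sub]
          exact (inSq_steps (i₀ := m) (i₁ := a) (fun q _ _ => hch.line.adj q) le_rfl hle le_rfl).2
      exact ⟨InSq.mono' (by omega) h', InSq.mono' hma h'⟩
    have hxbox : InSq (2 * U.N) x := by
      have h' := inSq_sub hm hstep.1
      rw [sub_sub_cancel] at h'
      exact InSq.mono' (by omega) h'
    have hclev : |c| ≤ 3 * (U.N : ℤ) := by
      have h' := inSq_sub hm hstep.1
      rw [sub_sub_cancel] at h'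
      have h'' := abs_lev_le hk h'
      rw [hx, hab.first] at h''
      omega
    rw [abs_le] at hclev
    have hcS : c ∈ S := Finset.mem_filter.2 ⟨by rw [Finset.mem_Icc]; omega, a, b, hab, hw⟩
    have hia : ia c = a := cross_unique (hcRi c hcS) hab
    have himg : ∀ (R' : ℕ), InSq R' (γ m - x) →
        γ m ∈ (box R').image fun d => γ (ia c) + d := fun R' hR' =>
      Finset.mem_image.2 ⟨γ m - x, mem_box.2 hR', by rw [hia, ← hx]; abel⟩
    by_cases hlg : c ∈ long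
    · exact Or.inl (Finset.mem_union_right _ (Finset.mem_biUnion.2 ⟨c, hlg, himg _ hstep.1⟩))
    have hlen' : ((wb c - wa c : ℤ) : ℝ) ≤ U.A * (U.n : ℝ) := by
      by_contra hcon
      exact hlg (Finset.mem_filter.2 ⟨hcS, lt_of_not_ge hcon⟩)
    have hev : U.ev k x t → ∃ x ∈ box (2 * U.N), U.ev k x t ∧ InSq U.R (γ m - x) :=
      fun he => ⟨x, mem_box.2 (by exact_mod_cast hxbox), he, hstep.1⟩
    by_cases hlow : FewLow U.r U.L x t
    swap
    · exact Or.inr (hev (Or.inl hlow))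
    by_cases hwild : shift x t ∈ wildSite k U.R U.r₁ U.A U.rho U.n
    · exact Or.inr (hev (Or.inr (Or.inl hwild)))
    have hcT : c ∈ T := Finset.mem_filter.2 ⟨hcS, hlen', by rw [hia]; exact hwild⟩
    by_cases hkc : lo c ∈ bad ∨ up c ∈ bad
    · exact Or.inl (Finset.mem_union_left _ (Finset.mem_biUnion.2
        ⟨c, Finset.mem_filter.2 ⟨hcT, hkc⟩, himg _ hstep.2⟩))
    push Not at hkc
    obtain ⟨s1, s2⟩ := strip_le U h (huR c hcT)
    have hcross : ∀ c' : ℤ, |c'| ≤ 4 * (U.N : ℤ) → c' ∉ bad →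
        ∃ p q, Cross k γ I₀ I₁ c' U.R p q := by
      intro c' hc' hb'
      by_contra hno
      refine hb' ⟨?_, fun ⟨p, q, hpq, _⟩ => hno ⟨p, q, cross_mono hRj hpq⟩⟩
      have : |(c' : ℝ)| ≤ ((4 * (U.N : ℤ) : ℤ) : ℝ) := by
        rw [← Int.cast_abs]; exact_mod_cast hc'
      push_cast at this hγN ⊢
      linarith
    obtain ⟨pL, qL, hL'⟩ := hcross (lo c) (by rw [abs_le]; simp only [hlo]; omega) hkc.1
    obtain ⟨pR, qR, hR'⟩ := hcross (up c) (by rw [abs_le]; simp only [hup]; omega) hkc.2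
    refine Or.inr (hev (Or.inr (Or.inr ⟨ui c, huR c hcT, ?_⟩)))
    have hw' := hwin c hcS
    have hc' := hcR c hcS
    have hhv := hheavy c hcS
    have ht' := htube c hcT
    rw [hia] at hw' hc' hhv ht'
    rw [hnval] at hw'
    refine mem_goodAt (A := U.A) (s' := sl c) (X := 2 * (U.N : ℤ)) hk hch hc' hhv hw' (hwa c hcS) (hwb c hcS)
      ?_ hlow ?_ ?_ hL' hR' s1 s2 h.hL hRL hRL hxbox ?_ h.hfit
    · have hcast : ((U.n : ℕ) : ℝ) = (3 * (U.P.Lam : ℤ) : ℝ) := by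
        simp [n]
      rwa [hcast] at hlen'
    · exact hsu c hcT
    · exact ht'
    · rw [hB]
      have : 8 * (U.N : ℤ) ≤ (U.K : ℤ) * U.N := mul_le_mul_of_nonneg_right hK8 (by omega)
      push_cast
      show 2 * (U.N : ℤ) + U.P.Lam + 2 * (U.N : ℤ) ≤ _
      omega

/-- First and last visits of a box. -/
lemma exists_visits {t : Conf} {γ : ℤ → V} (hline : IsBigeodesic t γ) (B : ℕ) {m : ℤ}
    (hm : InSq B (γ m)) :
    ∃ I₀ I₁, InSq B (γ I₀) ∧ InSq B (γ I₁) ∧ I₀ ≤ I₁ ∧ OnBd B (γ I₀) ∧ OnBd B (γ I₁) ∧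
      ∀ q, InSq B (γ q) → I₀ ≤ q ∧ q ≤ I₁ := by
  classical
  have hfin : {q : ℤ | InSq B (γ q)}.Finite :=
    ((box B).finite_toSet.preimage hline.inj.injOn).subset fun q hq => mem_box.2 hq
  have hne : hfin.toFinset.Nonempty := ⟨m, by simpa using hm⟩
  set I₀ := hfin.toFinset.min' hne
  set I₁ := hfin.toFinset.max' hne
  have h0 : InSq B (γ I₀) := by simpa using hfin.toFinset.min'_mem hne
  have h1 : InSq B (γ I₁) := by simpa using hfin.toFinset.max'_mem hne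
  have hall : ∀ q, InSq B (γ q) → I₀ ≤ q ∧ q ≤ I₁ := fun q hq =>
    ⟨hfin.toFinset.min'_le q (by simpa using hq), hfin.toFinset.le_max' q (by simpa using hq)⟩
  refine ⟨I₀, I₁, h0, h1, (hall _ h1).1, ⟨h0, ?_⟩, ⟨h1, ?_⟩, hall⟩
  · have hout : ¬ InSq B (γ (I₀ - 1)) := fun hq => by have := (hall _ hq).1; omega
    have hstep := abs_sub_le_of_adj (hline.adj (I₀ - 1))
    rw [sub_add_cancel, abs_le, abs_le] at hstep
    simp only [InSq] at h0 hout ⊢
    omega
  · have hout : ¬ InSq B (γ (I₁ + 1)) := fun hq => by have := (hall _ hq).2; omega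
    have hstep := abs_sub_le_of_adj (hline.adj I₁)
    rw [abs_le, abs_le] at hstep
    simp only [InSq] at h1 hout ⊢
    omega

/-- One line: all its vertices in the box are covered, apart from few. -/
lemma line_bad (h : U.OK) {t : Conf} (h0 : ∀ e, 0 ≤ t e)
    (hOK : ∀ i, ChordOK U.γ₀ U.C (U.rs i) (U.es i) (U.Rs i) (U.K * U.N) t) {γ : ℤ → V}
    (hline : IsBigeodesic t γ) :
    ∃ S : Finset V, (S.card : ℝ) ≤ 2 * U.η * (U.K * U.N : ℕ) ∧
      ∀ m, InSq U.N (γ m) → γ m ∈ S ∪ U.covered t := by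
  classical
  by_cases hmeet : ∃ m, InSq U.N (γ m)
  swap
  · refine ⟨∅, ?_, fun m hm => absurd ⟨m, hm⟩ hmeet⟩
    have := h.hη
    simp only [Finset.card_empty, Nat.cast_zero]
    positivity
  obtain ⟨m₀, hm₀⟩ := hmeet
  have hK8 := h.hK8
  have hNB : (U.N : ℤ) ≤ ((U.K * U.N : ℕ) : ℤ) := by push_cast; nlinarith
  obtain ⟨I₀, I₁, hb0, hb1, hle, hbd0, hbd1, hall⟩ :=
    exists_visits hline (U.K * U.N) (InSq.mono' hNB hm₀)
  have hseg : SegGeo t γ I₀ I₁ := by
    refine ⟨hle, fun q _ _ => hline.adj q, hline.inj.injOn, ?_⟩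
    rcases hle.lt_or_eq with hlt | heq
    · exact hline.geo _ _ hlt
    · subst heq; simp [T_self h0]
  have hnear : ∃ q, I₀ ≤ q ∧ q ≤ I₁ ∧ InSq ⌊U.γ₀ * (U.K * U.N : ℕ) / 8⌋ (γ q) := by
    refine ⟨m₀, (hall _ (InSq.mono' hNB hm₀)).1, (hall _ (InSq.mono' hNB hm₀)).2,
      InSq.mono' (Int.le_floor.2 ?_) hm₀⟩
    push_cast
    nlinarith [h.hK, Nat.cast_nonneg (α := ℝ) U.N]
  have hfr : ∀ i, ∃ q : Frame,
      ((I₁ - I₀ : ℤ) : ℝ) ≤ U.C * (U.K * U.N : ℕ) ∧
      (lev (fk q) ((fs q).vmap (γ I₀)) : ℝ) ≤ -U.γ₀ * (U.K * U.N : ℕ) ∧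
      U.γ₀ * (U.K * U.N : ℕ) ≤ (lev (fk q) ((fs q).vmap (γ I₁)) : ℝ) ∧
      (({c : ℤ | |(c : ℝ)| ≤ U.γ₀ * (U.K * U.N : ℕ) / 2 ∧
        ¬∃ a b, Cross (fk q) ((fs q).vmap ∘ γ) I₀ I₁ c (U.Rs i) a b ∧
          U.rs i ≤ wt t (γ (a - 1)) (γ a)}.ncard : ℕ) : ℝ) ≤ U.es i * (U.K * U.N : ℕ) ∧
      (({m : ℤ | I₀ ≤ m ∧ m ≤ I₁ ∧
          |(lev (fk q) ((fs q).vmap (γ m)) : ℝ)| ≤ U.γ₀ * (U.K * U.N : ℕ) / 4 ∧
        ¬∃ c a b, Cross (fk q) ((fs q).vmap ∘ γ) I₀ I₁ c (U.Rs i) a b ∧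
          U.rs i ≤ wt t (γ (a - 1)) (γ a) ∧ |m - a| ≤ (U.Rs i : ℤ)}.ncard : ℕ) : ℝ) ≤
        U.es i * (U.K * U.N : ℕ) := by
    intro i
    obtain ⟨hlen, σ, hσ, k, hk, e0, e1, e2, e3⟩ := hOK i γ I₀ I₁ hseg hbd0 hbd1 hnear
    obtain ⟨q, rfl, rfl⟩ := exists_frame hσ hk
    exact ⟨q, hlen, e0, e1, e2, e3⟩
  choose fr hlen he0 he1 hlev hidx using hfr
  obtain ⟨i, j, hij, hsame⟩ := Fintype.exists_ne_map_eq_of_card_lt fr
    (by rw [card_frame, Fintype.card_fin]; norm_num)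
  wlog hlt : i < j generalizing i j
  · exact this j i hij.symm hsame.symm (lt_of_le_of_ne (le_of_not_gt hlt) hij.symm)
  set q := fr i with hq
  set σ := fs q with hσ
  set t' := σ.symm.act t with ht'
  set γ' := σ.vmap ∘ γ with hγ'
  have hσm := fs_mem q
  have hwt : ∀ m, wt t' (γ' (m - 1)) (γ' m) = wt t (γ (m - 1)) (γ m) := by
    intro m
    have ha : Adj (γ (m - 1)) (γ m) := by simpa using hline.adj (m - 1)
    show wt (σ.symm.act t) (σ.vmap (γ (m - 1))) (σ.vmap (γ m)) = _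
    rw [LatSym.wt_act _ t ((σ.adj_map _ _).2 ha)]
    simp [LatSym.symm]
  have hch : Chord t' γ' ((U.K * U.N : ℕ) : ℤ) I₀ I₁ := by
    refine ⟨fun e => h0 _, (σ.symm.isBigeodesic_act t γ').2 ?_,
      fun m hm => hall m ((inSq_frame hσm _).1 hm)⟩
    simpa [hγ', LatSym.symm] using hline
  have hlevj := hlev j
  rw [← hsame] at hlevj
  obtain ⟨S, hScard, hS⟩ := frame_bad h (i := i) (j := j) (fk_cases q) hch hle (hlen i) (he0 i)
    (he1 i) (by simp only [hwt]; exact hlevj)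
  set badI := {m : ℤ | I₀ ≤ m ∧ m ≤ I₁ ∧
    |(lev (fk q) (σ.vmap (γ m)) : ℝ)| ≤ U.γ₀ * (U.K * U.N : ℕ) / 4 ∧
    ¬∃ c a b, Cross (fk q) γ' I₀ I₁ c (U.Rs i) a b ∧
      U.rs i ≤ wt t (γ (a - 1)) (γ a) ∧ |m - a| ≤ (U.Rs i : ℤ)} with hbadI
  have hbI : badI.Finite := (Set.finite_Icc I₀ I₁).subset fun m hm => ⟨hm.1, hm.2.1⟩
  refine ⟨S.image σ.vmap.symm ∪ hbI.toFinset.image γ, ?_, fun m hm => ?_⟩
  · have hc := Finset.card_union_le (S.image σ.vmap.symm) (hbI.toFinset.image γ)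
    have hc1 : (S.image σ.vmap.symm).card ≤ S.card := Finset.card_image_le
    have hc2 : (hbI.toFinset.image γ).card ≤ hbI.toFinset.card := Finset.card_image_le
    have hc' : ((S.image σ.vmap.symm ∪ hbI.toFinset.image γ).card : ℝ) ≤
        (S.card : ℝ) + (hbI.toFinset.card : ℝ) := by
      exact_mod_cast hc.trans (add_le_add hc1 hc2)
    rw [← Set.ncard_eq_toFinset_card badI hbI] at hc'
    have hp := h.hpair i j hlt
    have hl : 3 * U.C * (2 * (U.R : ℝ) + 1) ^ 2 / U.A ≤ U.η := by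
      rw [div_le_iff₀ h.hA]; exact h.hlong
    have hKN : (0 : ℝ) ≤ ((U.K * U.N : ℕ) : ℝ) := Nat.cast_nonneg _
    have h3 := hidx i
    calc ((S.image σ.vmap.symm ∪ hbI.toFinset.image γ).card : ℝ)
        ≤ (4 * (2 * (U.Rs i : ℝ) + 1) ^ 2 * U.es j +
            3 * U.C * (2 * (U.R : ℝ) + 1) ^ 2 / U.A) * (U.K * U.N : ℕ) +
          U.es i * (U.K * U.N : ℕ) := hc'.trans (add_le_add hScard h3)
      _ = (U.es i + 4 * (2 * (U.Rs i : ℝ) + 1) ^ 2 * U.es j +
            3 * U.C * (2 * (U.R : ℝ) + 1) ^ 2 / U.A) * (U.K * U.N : ℕ) := by ring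
      _ ≤ 2 * U.η * (U.K * U.N : ℕ) := mul_le_mul_of_nonneg_right (by linarith) hKN
  · rw [Finset.mem_union, Finset.mem_union]
    by_cases hb : m ∈ badI
    · exact Or.inl (Or.inr (Finset.mem_image.2 ⟨m, hbI.mem_toFinset.2 hb, rfl⟩))
    have hmI := hall m (InSq.mono' hNB hm)
    have hm' : InSq U.N (γ' m) := (inSq_frame hσm _).2 hm
    have hlv : |(lev (fk q) (σ.vmap (γ m)) : ℝ)| ≤ U.γ₀ * (U.K * U.N : ℕ) / 4 := by
      have h1 := abs_lev_le (fk_cases q) hm'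
      have h2 : |(lev (fk q) (σ.vmap (γ m)) : ℝ)| ≤ ((2 * (U.N : ℤ) : ℤ) : ℝ) := by
        rw [← Int.cast_abs, Int.cast_le]; exact h1
      push_cast at h2 ⊢
      nlinarith [h.hK, Nat.cast_nonneg (α := ℝ) U.N]
    simp only [hbadI, Set.mem_ofPred_eq, not_and, not_not] at hb
    obtain ⟨c, a, b, hab, hw, hma⟩ := hb hmI.1 hmI.2 hlv
    rw [← hwt a] at hw
    rcases hS m c a b hm' hab hw hma with h' | ⟨x, hx, hev, hd⟩
    · exact Or.inl (Or.inl (Finset.mem_image.2 ⟨γ' m, h', by simp [hγ']⟩))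
    · refine Or.inr (Finset.mem_biUnion.2 ⟨(q, x), Finset.mem_filter.2
        ⟨Finset.mem_product.2 ⟨Finset.mem_univ _, hx⟩, hev⟩, Finset.mem_image.2
          ⟨γ' m - x, mem_box.2 hd, ?_⟩⟩)
      show σ.vmap.symm (x + (γ' m - x)) = γ m
      simp [hγ']

/-- The vertices of the box on bigeodesics. -/
noncomputable def lineVerts (N : ℕ) (t : Conf) : Finset V :=
  open Classical in (box N).filter fun v => ∃ γ, IsBigeodesic t γ ∧ γ 0 = v

/-- The deterministic count. -/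
theorem vertex_count (h : U.OK) {t : Conf} (h0 : ∀ e, 0 ≤ t e)
    (hOK : ∀ i, ChordOK U.γ₀ U.C (U.rs i) (U.es i) (U.Rs i) (U.K * U.N) t) :
    ((lineVerts U.N t).card : ℝ≥0∞) ≤
      ((2 * U.R + 1) ^ 2 : ℕ) * ((U.hits t).card : ℝ≥0∞) +
        ENNReal.ofReal (2 * U.η * (U.K * U.N : ℕ)) *
          ((lineChords t U.N U.N).encard : ℝ≥0∞) := by
  classical
  have hNpos : 0 < U.N := by have := h.hN; have := h.hR; obtain ⟨a1, a2⟩ := strip_le U h (u := 0) (by simp); omega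
  have hKpos : 0 < U.K := by have := h.hK8; omega
  have hDpos : (0 : ℝ) < 2 * U.η * (U.K * U.N : ℕ) := by
    have := h.hη
    have : (0 : ℝ) < ((U.K * U.N : ℕ) : ℝ) := by exact_mod_cast Nat.mul_pos hKpos hNpos
    positivity
  rcases (lineChords t U.N U.N).finite_or_infinite with hfin | hinf
  swap
  · rw [hinf.encard_eq, ENat.toENNReal_top, ENNReal.mul_top (ENNReal.ofReal_pos.2 hDpos).ne',
      add_top]
    exact le_top
  have hrep : ∀ l ∈ hfin.toFinset, ∃ (γ : ℤ → V) (S : Finset V), IsBigeodesic t γ ∧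
      (∀ v ∈ l, ∃ m, γ m = v) ∧ (S.card : ℝ) ≤ 2 * U.η * (U.K * U.N : ℕ) ∧
      ∀ m, InSq U.N (γ m) → γ m ∈ S ∪ U.covered t := by
    intro l hl
    obtain ⟨γ, i₀, i₁, hlc, rfl⟩ := hfin.mem_toFinset.1 hl
    obtain ⟨S, hS1, hS2⟩ := line_bad h h0 hOK hlc.line
    refine ⟨γ, S, hlc.line, fun v hv => ?_, hS1, hS2⟩
    obtain ⟨q, -, rfl⟩ := List.mem_map.1 hv
    exact ⟨_, rfl⟩
  choose! g Sf hg hgl hgc hgcov using hrep
  have hsub : lineVerts U.N t ⊆ hfin.toFinset.biUnion Sf ∪ U.covered t := by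
    intro v hv
    obtain ⟨hvb, γ, hγ, hγv⟩ := Finset.mem_filter.1 hv
    have hm : InSq U.N (γ 0) := by rw [hγv]; exact mem_box.1 hvb
    obtain ⟨i₀, i₁, a0, a1, hle, -, -, hall⟩ := exists_visits hγ U.N hm
    set l := (List.range ((i₁ - i₀).toNat + 1)).map fun m : ℕ => γ (i₀ + m) with hl
    have hl' : l ∈ hfin.toFinset :=
      hfin.mem_toFinset.2 ⟨γ, i₀, i₁, ⟨hγ, a0, a1, hall, ⟨0, hm⟩⟩, rfl⟩
    have hvl : v ∈ l := by
      refine List.mem_map.2 ⟨(-i₀).toNat, List.mem_range.2 ?_, ?_⟩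
      · have := hall 0 hm; omega
      · have := hall 0 hm
        rw [Int.toNat_of_nonneg (by omega), add_neg_cancel, hγv]
    obtain ⟨m, hm'⟩ := hgl l hl' v hvl
    have := hgcov l hl' m (by rw [hm']; exact mem_box.1 hvb)
    rw [hm', Finset.mem_union] at this
    rcases this with h' | h'
    · exact Finset.mem_union_left _ (Finset.mem_biUnion.2 ⟨l, hl', h'⟩)
    · exact Finset.mem_union_right _ h'
  have hc := (Finset.card_le_card hsub).trans (Finset.card_union_le _ _)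
  have hc2 := U.card_covered t
  have hc3 : ((hfin.toFinset.biUnion Sf).card : ℝ≥0∞) ≤
      ENNReal.ofReal (2 * U.η * (U.K * U.N : ℕ)) * ((lineChords t U.N U.N).encard : ℝ≥0∞) := by
    have h1 : ((hfin.toFinset.biUnion Sf).card : ℝ) ≤
        (hfin.toFinset.card : ℝ) * (2 * U.η * (U.K * U.N : ℕ)) := by
      have := Finset.card_biUnion_le (s := hfin.toFinset) (t := Sf)
      calc ((hfin.toFinset.biUnion Sf).card : ℝ) ≤ ∑ l ∈ hfin.toFinset, ((Sf l).card : ℝ) := by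
            exact_mod_cast this
        _ ≤ ∑ _l ∈ hfin.toFinset, 2 * U.η * (U.K * U.N : ℕ) :=
            Finset.sum_le_sum fun l hl => hgc l hl
        _ = _ := by rw [Finset.sum_const, nsmul_eq_mul]
    rw [hfin.encard_eq_coe_toFinset_card, ENat.toENNReal_coe, mul_comm,
      ← ENNReal.ofReal_natCast hfin.toFinset.card, ← ENNReal.ofReal_mul (Nat.cast_nonneg _),
      ← ENNReal.ofReal_natCast (hfin.toFinset.biUnion Sf).card]
    exact ENNReal.ofReal_le_ofReal h1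
  calc ((lineVerts U.N t).card : ℝ≥0∞)
      ≤ ((hfin.toFinset.biUnion Sf).card : ℝ≥0∞) + ((U.covered t).card : ℝ≥0∞) := by
        exact_mod_cast hc
    _ ≤ ENNReal.ofReal (2 * U.η * (U.K * U.N : ℕ)) * ((lineChords t U.N U.N).encard : ℝ≥0∞) +
        ((2 * U.R + 1) ^ 2 : ℕ) * ((U.hits t).card : ℝ≥0∞) := by
        refine add_le_add hc3 ?_
        exact_mod_cast hc2
    _ = _ := add_comm _ _

end Run

end Vale.Agent.P158.Mass
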