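import Vale.Agent.P158.Spec3
import Vale.Agent.P158.StraightLine

/-!
Lattice lemmas for the supply of sites: boxes, levels along paths, windows around crossings.
-/

open MeasureTheory Filter Topology

namespace Vale.Agent.P158.Mass

/-- The vertices of the box of radius `n`. -/
noncomputable def box (n : ℕ) : Finset V :=
  (Finset.Icc (-(n : ℤ)) n) ×ˢ (Finset.Icc (-(n : ℤ)) n)

lemma mem_box {n : ℕ} {v : V} : v ∈ box n ↔ InSq n v := by
  simp [box, InSq, and_assoc]

lemma card_box (n : ℕ) : (box n).card = (2 * n + 1) ^ 2 := by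
  have : ((n : ℤ) + 1 + (n : ℤ)).toNat = 2 * n + 1 := by omega
  simp [box, this, sq]

lemma inSq_sub {a b : ℤ} {u v : V} (hu : InSq a u) (hv : InSq b v) : InSq (a + b) (u - v) := by
  simp only [InSq, Prod.fst_sub, Prod.snd_sub] at *
  omega

lemma inSq_add {a b : ℤ} {u v : V} (hu : InSq a u) (hv : InSq b v) : InSq (a + b) (u + v) := by
  simp only [InSq, Prod.fst_add, Prod.snd_add] at *
  omega

lemma InSq.mono' {a b : ℤ} {v : V} (h : a ≤ b) (hv : InSq a v) : InSq b v := by
  simp only [InSq] at *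
  omega

lemma inSq_of_sub {a b : ℤ} {u v : V} (huv : InSq a (u - v)) (hv : InSq b v) :
    InSq (a + b) u := by simpa using inSq_add huv hv

lemma abs_lev_le {k N : ℤ} (hk : k = 0 ∨ k = 1) {v : V} (hv : InSq N v) :
    |lev k v| ≤ 2 * N := by
  rw [abs_le]
  rcases hk with rfl | rfl <;> simp only [lev, InSq] at * <;> omega

lemma inSq_pt {k c y : ℤ} (hk : k = 0 ∨ k = 1) {a b : ℤ} (hc : |c| ≤ a) (hy : |y| ≤ b) :
    InSq (a + b) (pt k c y) := by
  rw [abs_le] at hc hy
  rcases hk with rfl | rfl <;> simp only [pt, InSq] <;> omega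

lemma pt_lev_snd (k : ℤ) (v : V) : pt k (lev k v) v.2 = v := by simp [pt, lev]

lemma lev_pt (k c y : ℤ) : lev k (pt k c y) = c := by simp [pt, lev]

lemma lev_sub (k : ℤ) (u v : V) : lev k (u - v) = lev k u - lev k v := by
  simp [lev]; ring

lemma lev_add (k : ℤ) (u v : V) : lev k (u + v) = lev k u + lev k v := by
  simp [lev]; ring

lemma inSq_frame {σ : LatSym} (hσ : σ ∈ frameSyms) {N : ℤ} (v : V) :
    InSq N (σ.vmap v) ↔ InSq N v := by
  simp only [frameSyms, List.mem_cons, List.not_mem_nil, or_false] at hσ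
  rcases hσ with rfl | rfl | rfl | rfl | rfl | rfl <;>
    simp [negSym, negXSym, LatSym.comp, InSq] <;> omega

section Path

variable {k : ℤ} {γ : ℤ → V} {i₀ i₁ : ℤ}

lemma inSq_steps (hadj : ∀ m, i₀ ≤ m → m < i₁ → Adj (γ m) (γ (m + 1))) {a b : ℤ}
    (ha : i₀ ≤ a) (hab : a ≤ b) (hb : b ≤ i₁) :
    InSq (b - a) (γ b - γ a) ∧ InSq (b - a) (γ a - γ b) := by
  induction b, hab using Int.leInduction with
  | base => simp [InSq]
  | succ b hb' ih =>
    obtain ⟨h1, h2⟩ := ih (by omega)
    obtain ⟨h3, h4⟩ := abs_sub_le_of_adj (hadj b (by omega) (by omega))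
    rw [abs_le] at h3 h4
    simp only [InSq, Prod.fst_sub, Prod.snd_sub] at *
    omega

lemma inSq_steps_abs (hadj : ∀ m, i₀ ≤ m → m < i₁ → Adj (γ m) (γ (m + 1))) {a b : ℤ}
    (ha : i₀ ≤ a) (ha' : a ≤ i₁) (hb : i₀ ≤ b) (hb' : b ≤ i₁) :
    InSq |b - a| (γ b - γ a) := by
  rcases le_total a b with h | h
  · rw [abs_of_nonneg (sub_nonneg.2 h)]
    exact (inSq_steps hadj ha h hb').1
  · rw [abs_of_nonpos (sub_nonpos.2 h), neg_sub]
    exact (inSq_steps hadj hb h ha').2

lemma lev_lip (hk : k = 0 ∨ k = 1) (hadj : ∀ m, i₀ ≤ m → m < i₁ → Adj (γ m) (γ (m + 1))) {a b : ℤ}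
    (ha : i₀ ≤ a) (hab : a ≤ b) (hb : b ≤ i₁) :
    |lev k (γ b) - lev k (γ a)| ≤ b - a := by
  induction b, hab using Int.leInduction with
  | base => simp
  | succ b hb' ih =>
    have h1 := ih (by omega)
    have h2 := abs_sub_le_of_adj (hadj b (by omega) (by omega))
    have h3 := hadj b (by omega) (by omega)
    simp only [Adj] at h3
    rw [abs_le] at h1 ⊢
    obtain ⟨h4, h5⟩ := h2
    rcases abs_cases ((γ b).1 - (γ (b + 1)).1) with hc | hc <;>
      rcases abs_cases ((γ b).2 - (γ (b + 1)).2) with hd | hd <;>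
        rcases hk with rfl | rfl <;> simp only [lev] at * <;> omega

lemma lev_succ (hk : k = 0 ∨ k = 1) (hadj : ∀ m, i₀ ≤ m → m < i₁ → Adj (γ m) (γ (m + 1))) {m : ℤ}
    (ha : i₀ ≤ m) (hb : m < i₁) :
    lev k (γ (m + 1)) - lev k (γ m) ≤ 1 ∧ lev k (γ m) - lev k (γ (m + 1)) ≤ 1 := by
  have h := lev_lip hk hadj ha (show m ≤ m + 1 by omega) (by omega)
  rw [abs_le] at h
  omega

variable {c : ℤ} {R : ℕ} {i j : ℤ}

lemma cross_range (hk : k = 0 ∨ k = 1)
    (hadj : ∀ m, i₀ ≤ m → m < i₁ → Adj (γ m) (γ (m + 1))) (hc : Cross k γ i₀ i₁ c R i j) {m : ℤ}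
    (h1 : i ≤ m) (h2 : m ≤ j) : c - R ≤ lev k (γ m) ∧ lev k (γ m) ≤ c + R := by
  have h := lev_lip hk hadj hc.lo.le h1 (h2.trans hc.hi.le)
  rw [abs_le, hc.first] at h
  have := hc.len
  omega

lemma cross_step (hk : k = 0 ∨ k = 1)
    (hadj : ∀ m, i₀ ≤ m → m < i₁ → Adj (γ m) (γ (m + 1))) (hc : Cross k γ i₀ i₁ c R i j) :
    lev k (γ (i - 1)) = c - 1 := by
  have hlo := hc.lo
  have h1 := lev_succ hk hadj (m := i - 1) (by omega) (by have := hc.le; have := hc.hi; omega)
  rw [sub_add_cancel, hc.first] at h1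
  have := hc.before (i - 1) (by omega) (by omega)
  omega

lemma cross_mono {R' : ℕ} (h : R ≤ R') (hc : Cross k γ i₀ i₁ c R i j) :
    Cross k γ i₀ i₁ c R' i j :=
  ⟨hc.lo, hc.le, hc.hi, by have := hc.len; omega, hc.first, hc.last, hc.before, hc.after⟩

/-- A window around a crossing of level `c`: from the last visit before it of level `c - n` to
the first visit after it of level `c + n`. -/
structure Win (k : ℤ) (γ : ℤ → V) (c n i j a b : ℤ) : Prop where
  lt_i : a < i
  j_lt : j < b
  lev_a : lev k (γ a) = c - n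
  lev_b : lev k (γ b) = c + n
  lo : ∀ m, a < m → m ≤ b → c - n < lev k (γ m)
  hi : ∀ m, a ≤ m → m < b → lev k (γ m) < c + n

lemma Win.band {n a b : ℤ} (h : Win k γ c n i j a b) (hij : i ≤ j) {m : ℤ} (h1 : a ≤ m)
    (h2 : m ≤ b) : c - n ≤ lev k (γ m) ∧ lev k (γ m) ≤ c + n := by
  have ha := h.lev_a
  have hb := h.lev_b
  have := h.lt_i
  have := h.j_lt
  constructor
  · rcases h1.lt_or_eq with h' | rfl
    · exact (h.lo m h' h2).le
    · omega
  · rcases h2.lt_or_eq with h' | rfl
    · exact (h.hi m h1 h').le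
    · omega

lemma exists_win (hk : k = 0 ∨ k = 1)
    (hadj : ∀ m, i₀ ≤ m → m < i₁ → Adj (γ m) (γ (m + 1))) (hc : Cross k γ i₀ i₁ c R i j) {n : ℤ}
    (hR : (R : ℤ) < n) (h0 : lev k (γ i₀) ≤ c - n) (h1 : c + n ≤ lev k (γ i₁)) :
    ∃ a b, i₀ ≤ a ∧ b ≤ i₁ ∧ Win k γ c n i j a b := by
  classical
  have hlo := hc.lo
  have hle := hc.le
  have hhi := hc.hi
  have hrange : ∀ m, i ≤ m → m ≤ j → c - n < lev k (γ m) ∧ lev k (γ m) < c + n := fun m u v => by
    have := cross_range hk hadj hc u v
    omega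
  set SA := (Finset.Icc i₀ (i - 1)).filter fun m => lev k (γ m) ≤ c - n
  have hA : SA.Nonempty := ⟨i₀, by simp [SA]; omega⟩
  set SB := (Finset.Icc (j + 1) i₁).filter fun m => c + n ≤ lev k (γ m)
  have hB : SB.Nonempty := ⟨i₁, by simp [SB]; omega⟩
  obtain ⟨ha1, ha2⟩ := Finset.mem_filter.1 (SA.max'_mem hA)
  obtain ⟨hb1, hb2⟩ := Finset.mem_filter.1 (SB.min'_mem hB)
  rw [Finset.mem_Icc] at ha1 hb1
  set a := SA.max' hA
  set b := SB.min' hB
  have hmax : ∀ m, a < m → m ≤ i - 1 → c - n < lev k (γ m) := fun m u v => by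
    by_contra hm
    have := SA.le_max' m (by simp [SA]; omega)
    omega
  have hmin : ∀ m, j + 1 ≤ m → m < b → lev k (γ m) < c + n := fun m u v => by
    by_contra hm
    have := SB.min'_le m (by simp [SB]; omega)
    omega
  have ea : lev k (γ a) = c - n := by
    have hs := lev_succ hk hadj ha1.1 (by omega)
    rcases eq_or_lt_of_le (show a + 1 ≤ i by omega) with e | e
    · have hf := hc.first
      rw [e] at hs
      omega
    · have := hmax (a + 1) (by omega) (by omega)
      omega
  have eb : lev k (γ b) = c + n := by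
    have hs := lev_succ hk hadj (m := b - 1) (by omega) (by omega)
    rw [sub_add_cancel] at hs
    rcases eq_or_lt_of_le (show j ≤ b - 1 by omega) with e | e
    · have hl := hc.last
      rw [← e] at hs
      omega
    · have := hmin (b - 1) (by omega) (by omega)
      omega
  refine ⟨a, b, ha1.1, hb1.2, ⟨by omega, by omega, ea, eb, fun m u v => ?_, fun m u v => ?_⟩⟩
  · rcases lt_or_ge m i with h | h
    · exact hmax m u (by omega)
    rcases le_or_gt m j with h' | h'
    · exact (hrange m h h').1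
    · have := hc.after m h' (by omega)
      omega
  · rcases lt_or_ge m i with h | h
    · have := hc.before m (by omega) h
      omega
    rcases le_or_gt m j with h' | h'
    · exact (hrange m h h').2
    · exact hmin m (by omega) v

/-- A crossing of a level strictly inside a window lies in that window. -/
lemma Win.cross_mem (hk : k = 0 ∨ k = 1)
    (hadj : ∀ m, i₀ ≤ m → m < i₁ → Adj (γ m) (γ (m + 1))) {n a b : ℤ}
    (h : Win k γ c n i j a b) (hij : i ≤ j) (ha : i₀ ≤ a) (hb : b ≤ i₁) {c' i' j' : ℤ} {R' : ℕ}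
    (hc : Cross k γ i₀ i₁ c' R' i' j') (h1 : c - n < c' - R') (h2 : c' + R' < c + n) :
    a < i' ∧ j' < b := by
  have hle := hc.le
  have := h.lt_i
  have := h.j_lt
  constructor
  · by_contra hcon
    have hlow : c' - R' ≤ lev k (γ a) := by
      rcases le_or_gt a j' with h' | h'
      · exact (cross_range hk hadj hc (by omega) h').1
      · have := hc.after a h' (by have := h.lt_i; have := h.j_lt; have := hc.hi; omega)
        omega
    have := h.lev_a
    omega
  · by_contra hcon
    have hup : lev k (γ b) ≤ c' + R' := by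
      rcases le_or_gt i' b with h' | h'
      · exact (cross_range hk hadj hc h' (by omega)).2
      · have := hc.before b (by have := hc.lo; have := h.lt_i; have := h.j_lt; omega) h'
        omega
    have := h.lev_b
    omega

/-- Windows of nearby crossings: the upper end of the lower one lies in the upper one. -/
lemma Win.upper_mem (hk : k = 0 ∨ k = 1)
    (hadj : ∀ m, i₀ ≤ m → m < i₁ → Adj (γ m) (γ (m + 1))) {n a b c₂ i₂ j₂ a₂ b₂ : ℤ}
    (h : Win k γ c n i j a b) (hb : b ≤ i₁) (hc : Cross k γ i₀ i₁ c R i j)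
    (h₂ : Win k γ c₂ n i₂ j₂ a₂ b₂) (ha₂ : i₀ ≤ a₂) (hb₂ : b₂ ≤ i₁) (h₁₂ : c ≤ c₂)
    (hij₂ : i₂ ≤ j₂) (hlt : c₂ - n < c - R) (hR : (R : ℤ) < n) : a₂ < i ∧ a₂ ≤ b ∧ b ≤ b₂ := by
  have := h.lt_i
  have := h.j_lt
  have := h₂.lt_i
  have := h₂.j_lt
  have := hc.le
  have := hc.lo
  have := hc.hi
  have hai : a₂ < i := by
    by_contra hcon
    have hlow : c - R ≤ lev k (γ a₂) := by
      rcases le_or_gt a₂ j with h' | h'
      · exact (cross_range hk hadj hc (by omega) h').1
      · have := hc.after a₂ h' (by have := h₂.lev_a; have := hc.hi; omega)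
        omega
    have := h₂.lev_a
    omega
  refine ⟨hai, ?_, ?_⟩
  · have := h.j_lt
    have := hc.le
    omega
  · by_contra hcon
    have hlb := h₂.lev_b
    have := h.lev_b
    rcases le_or_gt b₂ j with h' | h'
    · rcases lt_or_ge b₂ i with h'' | h''
      · have := hc.before b₂ (by omega) h''
        omega
      · have := cross_range hk hadj hc h'' h'
        omega
    · have := h.hi b₂ (by have := h.lt_i; have := hc.le; omega) (by omega)
      omega

end Path

/-- A finite path of a sequence as a walk, with the count of its steps of a given kind. -/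
lemma exists_walk_count {r : ℕ → V} {d : ℕ} (hadj : ∀ m < d, Adj (r m) (r (m + 1)))
    (f : V → V → Bool) :
    ∃ p : grid.Walk (r 0) (r d), p.length = d ∧
      p.support = (List.range (d + 1)).map r ∧
      (p.darts.filter fun e => f e.toProd.1 e.toProd.2).length
        = ((Finset.range d).filter fun m => f (r m) (r (m + 1)) = true).card := by
  induction d with
  | zero => exact ⟨.nil, rfl, by simp, by simp⟩
  | succ d ih =>
    obtain ⟨p, hl, hs, hf⟩ := ih fun m hm => hadj m (by omega)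
    have ha : grid.Adj (r d) (r (d + 1)) := hadj d (by omega)
    refine ⟨p.concat ha, by simp [hl], ?_, ?_⟩
    · rw [SimpleGraph.Walk.support_concat, hs, List.range_succ (n := d + 1)]
      simp
    · rw [SimpleGraph.Walk.darts_concat, List.concat_eq_append, List.filter_append,
        List.length_append, hf, Finset.range_add_one, Finset.filter_insert]
      by_cases hb : f (r d) (r (d + 1)) = true
      · rw [if_pos hb, Finset.card_insert_of_notMem (by simp)]
        simp [hb]
      · rw [if_neg hb]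
        simp [hb]

end Vale.Agent.P158.Mass
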