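import Vale.Agent.P158.Gen.Law
import Vale.Agent.P158.Spec4
import Vale.Agent.P158.Meas
import Vale.Agent.P158.Rays

/-!
Lowering the entrance edge of a site turns a confined line into a rigid site line, at the cost of
a constant factor in probability.
-/

open MeasureTheory Filter Topology
open scoped ENNReal

namespace Vale.Agent.P158.Mass

/-- A confined bigeodesic at a site with a heavy entrance edge, not yet rigid. -/
structure PreSite (P : SiteP) (r₁ : ℝ) (k : ℤ) (s : ℝ) (x : V) (t : Conf) (γ : ℤ → V)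
    (iL jR : ℤ) : Prop where
  line : IsBigeodesic t γ
  origin : γ 0 = x
  site : ∃ j, BoxCross k γ P.N (lev k x) P.R 0 j
  left : ∃ j, BoxCross k γ P.N (-(P.Lam : ℤ)) P.R' iL j ∧ j < 0
  right : ∃ i, BoxCross k γ P.N P.Lam P.R' i jR ∧ 0 < i
  inBox : ∀ m, iL - 1 ≤ m → m ≤ jR + 1 → InSq P.N (γ m)
  tube : ∃ s' : ℝ, |s' - s| ≤ P.ε ∧ ∀ m, iL ≤ m → m ≤ jR →
    |((γ m).2 : ℝ) - x.2 - s' * (lev k (γ m) - lev k x)| ≤ P.w
  entr : r₁ ≤ wt t (γ (-1)) (γ 0)
  heavy : P.L ≤ {m : ℤ | m ≠ -1 ∧ iL ≤ m ∧ m < jR ∧ P.r ≤ wt t (γ m) (γ (m + 1)) ∧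
    |lev k (γ m) - lev k x| ≤ (P.L : ℤ) ∧ |lev k (γ (m + 1)) - lev k x| ≤ (P.L : ℤ)}.ncard

/-- The configurations with such a line at the site of height `y` on level `c`. -/
def preEvent (P : SiteP) (r₁ : ℝ) (k c : ℤ) (s : ℝ) (y : ℤ) : Set Conf :=
  {t | (∀ e, 0 ≤ t e) ∧ ∃ γ iL jR, PreSite P r₁ k s (pt k c y) t γ iL jR}

lemma lineSite_update {P : SiteP} {r₁ : ℝ} {k : ℤ} {s : ℝ} {x : V} {t : Conf} {γ : ℤ → V}
    {iL jR : ℤ} (h : PreSite P r₁ k s x t γ iL jR) (h0 : ∀ e, 0 ≤ t e) (hδ : 0 ≤ P.δ) {v : ℝ}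
    (hv0 : 0 ≤ v) (hv : v < r₁ - P.δ) :
    LineSite P k s x (Function.update t (edgeOf (γ (-1)) (γ 0)) v) γ iL jR := by
  set e := edgeOf (γ (-1)) (γ 0) with he
  set t' := Function.update t e v with ht'
  have hte : r₁ ≤ t e := h.entr
  have ha1 : Adj (γ (-1)) (γ 0) := by simpa using h.line.adj (-1)
  have h0' : ∀ f, 0 ≤ t' f := fun f => by
    rcases eq_or_ne f e with rfl | hf
    · rw [ht', Function.update_self]; exact hv0
    · rw [ht', Function.update_of_ne hf]; exact h0 f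
  have hoff : ∀ f, f ∉ ({e} : Finset Edge) → t' f = t f := fun f hf =>
    Function.update_of_ne (by simpa using hf) _ _
  have hle : ∀ f, t' f ≤ t f := fun f => by
    rcases eq_or_ne f e with rfl | hf
    · rw [ht', Function.update_self]; linarith
    · rw [ht', Function.update_of_ne hf]
  have hline : IsBigeodesic t' γ :=
    Rays.bigeodesic_lower h.line h0 h0' hoff hle fun f hf => ⟨-1, by simpa [he] using hf⟩
  have hwt : ∀ m : ℤ, wt t' (γ m) (γ (m + 1)) =
      wt t (γ m) (γ (m + 1)) - if m = -1 then t e - v else 0 := by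
    intro m
    by_cases hm : m = -1
    · subst hm
      simp only [wt, neg_add_cancel, if_pos]
      rw [← he, ht', Function.update_self]
      ring
    · have hne : edgeOf (γ m) (γ (m + 1)) ≠ e := by
        intro heq
        rcases Rays.edgeOf_inj (h.line.adj m) ha1 heq with ⟨e1, -⟩ | ⟨e1, e2⟩
        · exact hm (h.line.inj e1)
        · have := h.line.inj e1; have := h.line.inj e2; omega
      simp [wt, ht', Function.update_of_ne hne, hm]
  refine ⟨hline, h.origin, h.site, h.left, h.right, h.inBox, h.tube, ?_, ?_⟩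
  · intro n m a z p hna hmz hp
    subst hna hmz
    rw [← he] at hp
    have hpl : plen t' p = plen t p :=
      congrArg List.sum (List.map_congr_left fun d hd => by
        have := hp d hd
        rw [Set.mem_compl_iff, Set.mem_singleton_iff] at this
        exact Function.update_of_ne this v t)
    have hlt : -((n : ℤ) + 1) < (m : ℤ) := by omega
    have hT : T t (γ (-((n : ℤ) + 1))) (γ m) ≤ plen t p := T_le h0 p
    rw [← hline.geo _ _ hlt, hpl]
    rw [← h.line.geo _ _ hlt] at hT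
    simp only [hwt, Finset.sum_sub_distrib]
    rw [Finset.sum_ite_eq' _ (-1), if_pos (by simp only [Finset.mem_Ico]; omega)]
    linarith
  · refine h.heavy.trans (Set.ncard_le_ncard ?_ ?_)
    · rintro m ⟨h1, h2, h3, h4, h5, h6⟩
      refine ⟨h2, h3, ?_, h5, h6⟩
      rw [hwt m, if_neg h1, sub_zero]
      exact h4
    · exact (Set.finite_Ico iL jR).subset fun m hm => ⟨hm.1, hm.2.1⟩

/-- The entrance edge of a site at a vertex is one of four. -/
lemma entrance_edge {P : SiteP} {r₁ : ℝ} {k : ℤ} {s : ℝ} {x : V} {t : Conf} {γ : ℤ → V}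
    {iL jR : ℤ} (h : PreSite P r₁ k s x t γ iL jR) :
    edgeOf (γ (-1)) (γ 0) ∈ (nbrs x).image fun u => edgeOf u x := by
  rw [Finset.mem_image]
  refine ⟨γ (-1), ?_, by rw [h.origin]⟩
  rw [mem_nbrs, ← h.origin]
  exact Adj.symm (by simpa using h.line.adj (-1))

lemma law_preEvent_le {G : Measure ℝ} [IsProbabilityMeasure G] (P : SiteP) (r₁ : ℝ) (k c : ℤ)
    (s : ℝ) (y : ℤ) (hδ : 0 ≤ P.δ) :
    law G (preEvent P r₁ k c s y) * G (Set.Ico 0 (r₁ - P.δ)) ≤
      4 * law G (siteEvent2 P k c s y) := by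
  set x := pt k c y
  set F := (nbrs x).image fun u => edgeOf u x
  set Ev : Edge → Set Conf := fun e => {t | (∀ f, 0 ≤ t f) ∧
    ∃ γ iL jR, PreSite P r₁ k s x t γ iL jR ∧ edgeOf (γ (-1)) (γ 0) = e}
  set U := Set.Ico 0 (r₁ - P.δ)
  set S := toMeasurable (law G) (siteEvent2 P k c s y) with hS
  have hone : ∀ e, law G (Ev e) * G U ≤ law G (siteEvent2 P k c s y) := fun e => by
    rw [← measure_toMeasurable (μ := law G) (siteEvent2 P k c s y)]
    calc law G (Ev e) * G U = ((law G).prod G) (Ev e ×ˢ U) := (Measure.prod_prod _ _).symm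
      _ ≤ ((law G).prod G) ((fun q : Conf × ℝ => Function.update q.1 e q.2) ⁻¹' S) := by
          refine measure_mono ?_
          rintro ⟨t, v⟩ ⟨⟨h0, γ, iL, jR, hp, rfl⟩, hv⟩
          exact subset_toMeasurable _ _ ⟨γ, iL, jR, lineSite_update hp h0 hδ hv.1 hv.2⟩
      _ = law G S := (measurePreserving_update G e).measure_preimage
          (measurableSet_toMeasurable _ _).nullMeasurableSet
  have hsub : preEvent P r₁ k c s y ⊆ ⋃ e ∈ F, Ev e := by
    rintro t ⟨h0, γ, iL, jR, hp⟩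
    exact Set.mem_iUnion₂.2 ⟨_, entrance_edge hp, h0, γ, iL, jR, hp, rfl⟩
  calc law G (preEvent P r₁ k c s y) * G U ≤ (∑ e ∈ F, law G (Ev e)) * G U := by
        gcongr
        exact (measure_mono hsub).trans (measure_biUnion_finset_le _ _)
    _ = ∑ e ∈ F, law G (Ev e) * G U := Finset.sum_mul _ _ _
    _ ≤ ∑ _e ∈ F, law G (siteEvent2 P k c s y) := Finset.sum_le_sum fun e _ => hone e
    _ = F.card • law G (siteEvent2 P k c s y) := Finset.sum_const _
    _ ≤ 4 • law G (siteEvent2 P k c s y) :=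
        nsmul_le_nsmul_left zero_le (Finset.card_image_le.trans (card_nbrs_le x))
    _ = _ := by simp [nsmul_eq_mul]

/-- A threshold below another one still charged by the law. -/
lemma exists_gap {G : Measure ℝ} (hG : LawGen G) {r₁ : ℝ} (h : 0 < G (Set.Iio r₁)) :
    ∃ δ : ℝ, 0 < δ ∧ 0 < G (Set.Ico 0 (r₁ - δ)) := by
  have := hG.prob
  have hneg : G (Set.Iio (0 : ℝ)) = 0 :=
    measure_mono_null (t := (Set.Ici 0)ᶜ) (fun z hz hzM => ((Set.mem_Ici.1 hzM).trans_lt hz).false)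
      ((prob_compl_eq_zero_iff measurableSet_Ici).2 hG.supp)
  have hu : Set.Iio r₁ ⊆ Set.Iio 0 ∪ ⋃ n : ℕ, Set.Ico 0 (r₁ - 1 / (n + 1)) := by
    intro z hz
    rcases lt_or_ge z 0 with h0 | h0
    · exact Or.inl h0
    · obtain ⟨n, hn⟩ := exists_nat_one_div_lt (K := ℝ) (show 0 < r₁ - z from sub_pos.2 hz)
      exact Or.inr (Set.mem_iUnion.2 ⟨n, h0, by linarith⟩)
  by_contra hno
  push Not at hno
  have h0 : G (⋃ n : ℕ, Set.Ico 0 (r₁ - 1 / ((n : ℝ) + 1))) = 0 :=
    measure_iUnion_null fun n => nonpos_iff_eq_zero.1 (hno _ (by positivity))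
  exact h.ne' (measure_mono_null hu (measure_union_null hneg h0))

end Vale.Agent.P158.Mass
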