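import Vale.Agent.P158.Mass.Geom
import Vale.Agent.P158.Mass.Site
import Vale.Agent.P158.Meas2

/-!
One site of a chord: its window, its tube, its heavy edges, and the translated confined line.
-/

open MeasureTheory Filter Topology

namespace Vale.Agent.P158.Mass

variable {t : Conf} {γ : ℤ → V} {k : ℤ} {B I₀ I₁ : ℤ}

/-- A bigeodesic with a range of indices containing all its visits of the box of radius `B`. -/
structure Chord (t : Conf) (γ : ℤ → V) (B I₀ I₁ : ℤ) : Prop where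
  nn : ∀ e, 0 ≤ t e
  line : IsBigeodesic t γ
  only : ∀ m, InSq B (γ m) → I₀ ≤ m ∧ m ≤ I₁

lemma Chord.adjOn (h : Chord t γ B I₀ I₁) :
    ∀ m, I₀ ≤ m → m < I₁ → Adj (γ m) (γ (m + 1)) := fun m _ _ => h.line.adj m

/-- The part of the path between `a` and `b` stays within `w` of the line of slope `s` through
`x`. -/
def Tube (k : ℤ) (γ : ℤ → V) (x : V) (a b : ℤ) (s w : ℝ) : Prop :=
  ∀ m, a ≤ m → m ≤ b → |((γ m).2 : ℝ) - x.2 - s * (lev k (γ m) - lev k x)| ≤ w

lemma siteSeg_of_win {r₁ A : ℝ} {R n : ℕ} {c i j a b : ℤ} (hch : Chord t γ B I₀ I₁)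
    (hc : Cross k γ I₀ I₁ c R i j) (hr : r₁ ≤ wt t (γ (i - 1)) (γ i))
    (hw : Win k γ c n i j a b) (ha : I₀ ≤ a) (hb : b ≤ I₁)
    (hlen : ((b - a : ℤ) : ℝ) ≤ A * n) :
    SiteSeg k R r₁ A n n (shift (γ i) t) (fun m => γ m - γ i) a b i j := by
  have hlt := hw.lt_i
  have hjb := hw.j_lt
  have hij := hc.le
  have hseg : SegGeo t γ a b := by
    refine ⟨by omega, fun m _ _ => hch.line.adj m, hch.line.inj.injOn, ?_⟩
    exact hch.line.geo a b (by omega)
  have hx : lev k (γ i) = c := hc.first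
  have hadj : ∀ m, a ≤ m → m < b → Adj (γ m) (γ (m + 1)) := fun m _ _ => hch.line.adj m
  have hsl : ∀ m, a ≤ m → m ≤ b → |((γ m).2 : ℝ) - (γ i).2| ≤ A * n := by
    intro m h1 h2
    refine le_trans ?_ hlen
    have h := inSq_steps_abs hadj (show a ≤ i by omega) (show i ≤ b by omega) h1 h2
    have hab : |m - i| ≤ b - a := by rw [abs_le]; omega
    simp only [InSq, Prod.snd_sub] at h
    have h' : |(γ m).2 - (γ i).2| ≤ b - a := by rw [abs_le]; omega
    exact_mod_cast h'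
  refine siteSeg_shift hseg ?_ rfl hr ?_ ?_ (fun m h1 h2 => ?_) (hsl a le_rfl (by omega))
    (hsl b (by omega) le_rfl)
  · rw [hx]
    exact ⟨hlt, hij, hjb, hc.len, hc.first, hc.last, fun m h1 h2 => hc.before m (by omega) h2,
      fun m h1 h2 => hc.after m h1 (by omega)⟩
  · rw [hw.lev_a, hx]
  · rw [hw.lev_b, hx]
  · rw [hx]
    exact hw.band hij h1 h2

lemma tube_of_not_wild {r₁ A ρ : ℝ} {R n : ℕ} {c i j a b : ℤ} (hch : Chord t γ B I₀ I₁)
    (hc : Cross k γ I₀ I₁ c R i j) (hr : r₁ ≤ wt t (γ (i - 1)) (γ i))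
    (hw : Win k γ c n i j a b) (ha : I₀ ≤ a) (hb : b ≤ I₁)
    (hlen : ((b - a : ℤ) : ℝ) ≤ A * n) (hnw : shift (γ i) t ∉ wildSite k R r₁ A ρ n) :
    ∃ s : ℝ, |s| ≤ A ∧ Tube k γ (γ i) a b s (ρ * n) := by
  by_contra hno
  refine hnw (shift_mem_wildSite (siteSeg_of_win hch hc hr hw ha hb hlen) fun s hs => ?_)
  by_contra hno'
  push Not at hno'
  exact hno ⟨s, hs, hno'⟩

/-- Two tubes of nearby crossings have nearly the same slope. -/
lemma slope_close {R : ℕ} {n c₁ c₂ i₁ j₁ i₂ j₂ a₁ b₁ a₂ b₂ : ℤ} {s₁ s₂ w : ℝ}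
    (hk : k = 0 ∨ k = 1) (hch : Chord t γ B I₀ I₁) (hc₁ : Cross k γ I₀ I₁ c₁ R i₁ j₁)
    (hc₂ : Cross k γ I₀ I₁ c₂ R i₂ j₂) (h₁ : Win k γ c₁ n i₁ j₁ a₁ b₁)
    (h₂ : Win k γ c₂ n i₂ j₂ a₂ b₂) (hb₁ : b₁ ≤ I₁) (ha₂ : I₀ ≤ a₂) (hb₂ : b₂ ≤ I₁)
    (h₁₂ : c₁ ≤ c₂) (hlt : c₂ - n < c₁ - R) (hR : (R : ℤ) < n)
    (t₁ : Tube k γ (γ i₁) a₁ b₁ s₁ w) (t₂ : Tube k γ (γ i₂) a₂ b₂ s₂ w) :
    |s₁ - s₂| * n ≤ 3 * w := by
  obtain ⟨u1, u2, u3⟩ := Win.upper_mem hk hch.adjOn h₁ hb₁ hc₁ h₂ ha₂ hb₂ h₁₂ hc₂.le hlt hR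
  have := h₁.lt_i
  have := h₁.j_lt
  have := hc₁.le
  have p := t₁ b₁ (by omega) le_rfl
  have q := t₂ b₁ u2 u3
  have q' := t₂ i₁ u1.le (by omega)
  rw [h₁.lev_b, hc₁.first] at p
  rw [h₁.lev_b, hc₂.first] at q
  rw [hc₁.first, hc₂.first] at q'
  push_cast at p q q'
  have hn : (0 : ℝ) ≤ n := by exact_mod_cast (show (0 : ℤ) ≤ n by omega)
  rw [← abs_of_nonneg hn, ← abs_mul, abs_le]
  rw [abs_le] at p q q'
  constructor <;> linarith [p.1, p.2, q.1, q.2, q'.1, q'.2]

/-- Around a site with few light edges on long paths many edges are heavy. -/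
lemma heavy_count {r : ℝ} {L R : ℕ} {c i j a b : ℤ} (hk : k = 0 ∨ k = 1)
    (hch : Chord t γ B I₀ I₁) (hc : Cross k γ I₀ I₁ c R i j) (hw : Win k γ c L i j a b)
    (hL : 2 ≤ L) (hlow : FewLow r L (γ i) t) :
    L ≤ {m : ℤ | m ≠ i - 1 ∧ a ≤ m ∧ m < b ∧ r ≤ wt t (γ m) (γ (m + 1)) ∧
      |lev k (γ m) - c| ≤ (L : ℤ) ∧ |lev k (γ (m + 1)) - c| ≤ (L : ℤ)}.ncard := by
  classical
  have hlt := hw.lt_i
  have hjb := hw.j_lt
  have hij := hc.le
  have hadj : ∀ m, a ≤ m → m < b → Adj (γ m) (γ (m + 1)) := fun m _ _ => hch.line.adj m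
  have hab1 : (L : ℤ) ≤ i - a := by
    have h := lev_lip hk hadj (le_refl a) hlt.le (by omega)
    rw [hw.lev_a, hc.first, abs_le] at h
    omega
  have hib : (L : ℤ) ≤ b - i := by
    have h := lev_lip hk hadj hlt.le (show i ≤ b by omega) le_rfl
    rw [hw.lev_b, hc.first, abs_le] at h
    omega
  set d₁ := (b - i).toNat with hd₁
  set d₂ := (i - a).toNat with hd₂
  have count : ∀ (r' : ℕ → V) (d : ℕ), r' 0 = γ i → Function.Injective r' →
      (∀ m, Adj (r' m) (r' (m + 1))) → L ≤ d →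
      3 * d ≤ 4 * ((Finset.range d).filter fun m => r ≤ wt t (r' m) (r' (m + 1))).card := by
    intro r' d e hinj ha hLd
    obtain ⟨p, hl, hs, hf⟩ := exists_walk_count (r := r') (d := d) (fun m _ => ha m)
      (fun u v => decide (wt t u v < r))
    have hp : p.IsPath := by
      rw [SimpleGraph.Walk.isPath_def, hs]
      exact List.nodup_range.map hinj
    have h := hlow (r' d) (p.copy e rfl) ((SimpleGraph.Walk.isPath_copy _ _ _).2 hp)
      (by rw [SimpleGraph.Walk.length_copy, hl]; exact hLd)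
    rw [SimpleGraph.Walk.darts_copy, SimpleGraph.Walk.length_copy, hf, hl] at h
    simp only [decide_eq_true_eq] at h
    have hsum := Finset.card_filter_add_card_filter_not (s := Finset.range d)
      (fun m => wt t (r' m) (r' (m + 1)) < r)
    rw [Finset.card_range] at hsum
    simp only [not_lt] at hsum
    omega
  have hinj := hch.line.inj
  have hf := count (fun m => γ (i + m)) d₁ (by simp)
    (fun p q e => by have := hinj e; omega)
    (fun m => by simpa [add_assoc] using hch.line.adj (i + m)) (by omega)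
  have hbk := count (fun m => γ (i - m)) d₂ (by simp)
    (fun p q e => by have := hinj e; omega)
    (fun m => by
      have h := Adj.symm (hch.line.adj (i - (m + 1 : ℕ)))
      rw [show i - ((m + 1 : ℕ) : ℤ) + 1 = i - m by push_cast; ring] at h
      exact h) (by omega)
  set S₁ := ((Finset.range d₁).filter fun m : ℕ =>
    r ≤ wt t (γ (i + m)) (γ (i + (m + 1 : ℕ)))).image fun m : ℕ => i + (m : ℤ) with hS₁
  set S₂ := ((Finset.range d₂).filter fun m : ℕ =>
    r ≤ wt t (γ (i - m)) (γ (i - (m + 1 : ℕ)))).image fun m : ℕ => i - (m + 1 : ℤ) with hS₂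
  have hc1 : 3 * d₁ ≤ 4 * S₁.card := by
    rwa [hS₁, Finset.card_image_of_injective _ fun p q e => by simpa using e]
  have hc2 : 3 * d₂ ≤ 4 * S₂.card := by
    rwa [hS₂, Finset.card_image_of_injective _ fun p q e => by simpa using e]
  have hdisj : Disjoint S₁ S₂ := by
    rw [Finset.disjoint_left]
    intro m h1 h2
    simp only [hS₁, hS₂, Finset.mem_image, Finset.mem_filter] at h1 h2
    obtain ⟨p, -, rfl⟩ := h1
    obtain ⟨q, -, hq⟩ := h2
    omega
  have hband : ∀ m, a ≤ m → m ≤ b → |lev k (γ m) - c| ≤ (L : ℤ) := fun m h1 h2 => by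
    have := hw.band hij h1 h2
    rw [abs_le]
    omega
  have hsub : ↑((S₁ ∪ S₂).erase (i - 1)) ⊆ {m : ℤ | m ≠ i - 1 ∧ a ≤ m ∧ m < b ∧
      r ≤ wt t (γ m) (γ (m + 1)) ∧ |lev k (γ m) - c| ≤ (L : ℤ) ∧
      |lev k (γ (m + 1)) - c| ≤ (L : ℤ)} := by
    intro m hm
    simp only [Finset.coe_erase, Set.mem_sdiff, Finset.mem_coe, Set.mem_singleton_iff,
      Finset.mem_union] at hm
    obtain ⟨hm, hne⟩ := hm
    have key : a ≤ m ∧ m < b ∧ r ≤ wt t (γ m) (γ (m + 1)) := by
      rcases hm with h | h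
      · simp only [hS₁, Finset.mem_image, Finset.mem_filter, Finset.mem_range] at h
        obtain ⟨p, ⟨hp, hh⟩, rfl⟩ := h
        refine ⟨by omega, by omega, ?_⟩
        rwa [add_assoc, show ((p : ℤ) + 1) = ((p + 1 : ℕ) : ℤ) by push_cast; ring]
      · simp only [hS₂, Finset.mem_image, Finset.mem_filter, Finset.mem_range] at h
        obtain ⟨p, ⟨hp, hh⟩, rfl⟩ := h
        refine ⟨by omega, by omega, ?_⟩
        rw [wt_comm] at hh
        rwa [show i - ((p : ℤ) + 1) + 1 = i - p by ring,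
          show i - ((p : ℤ) + 1) = i - ((p + 1 : ℕ) : ℤ) by push_cast; ring]
    exact ⟨hne, key.1, key.2.1, key.2.2, hband m key.1 (by omega),
      hband (m + 1) (by omega) (by omega)⟩
  refine le_trans ?_ (Set.ncard_le_ncard hsub
    ((Set.finite_Ico a b).subset fun m hm => ⟨hm.2.1, hm.2.2.1⟩))
  rw [Set.ncard_coe_finset]
  have he := Finset.pred_card_le_card_erase (a := i - 1) (s := S₁ ∪ S₂)
  rw [Finset.card_union_of_disjoint hdisj] at he
  omega

/-- The event that `x` can serve as the site of level `c` and slope `s` at every height. -/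
def goodAt (P : SiteP) (r₁ : ℝ) (k c : ℤ) (s : ℝ) (x : V) : Set Conf :=
  {t | ∀ y : ℤ, 4 * |y| ≤ (P.N : ℤ) → shift (x - pt k c y) t ∈ preEvent P r₁ k c s y}

lemma boxCross_of_cross {R : ℕ} {N c' c cl i j ic : ℤ} {v : V} (hk : k = 0 ∨ k = 1)
    (hch : Chord t γ B I₀ I₁) (hc : Cross k γ I₀ I₁ c' R i j)
    (hbox : ∀ u, InSq N (u - v) → InSq B u) (hv : lev k v = cl) (hcc : c' - cl = c) :
    BoxCross k (fun m => γ (m + ic) - v) N c R (i - ic) (j - ic) := by
  have hst := cross_step hk hch.adjOn hc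
  refine ⟨by have := hc.le; omega, by have := hc.len; omega, ?_, ?_, ?_, fun m h1 h2 => ?_,
    fun m h1 h2 => ?_⟩
  · rw [lev_sub, sub_add_cancel, hc.first, hv, hcc]
  · rw [lev_sub, sub_add_cancel, hc.last, hv, hcc]
  · rw [lev_sub, show i - ic - 1 + ic = i - 1 by ring, hst, hv]
    omega
  · have := hc.before (m + ic) (hch.only _ (hbox _ h2)).1 (by omega)
    rw [lev_sub, hv]
    omega
  · have := hc.after (m + ic) (by omega) (hch.only _ (hbox _ h2)).2
    rw [lev_sub, hv]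
    omega

/-- A windowed crossing in a tube with good outer levels makes a site at every height. -/
lemma mem_goodAt {P : SiteP} {r₁ A : ℝ} {c : ℤ} {s s' : ℝ} {cx i j a b iL jL iR jR X : ℤ}
    (hk : k = 0 ∨ k = 1) (hch : Chord t γ B I₀ I₁)
    (hc : Cross k γ I₀ I₁ cx P.R i j) (hr : r₁ ≤ wt t (γ (i - 1)) (γ i))
    (hw : Win k γ cx (3 * (P.Lam : ℤ)) i j a b) (ha : I₀ ≤ a) (hb : b ≤ I₁)
    (hlen : ((b - a : ℤ) : ℝ) ≤ A * (3 * (P.Lam : ℤ)))
    (hlow : FewLow P.r P.L (γ i) t)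
    (hs : |s' - s| ≤ P.ε) (htube : Tube k γ (γ i) a b s' P.w)
    (hcL : Cross k γ I₀ I₁ (cx - c - P.Lam) P.R' iL jL)
    (hcR : Cross k γ I₀ I₁ (cx - c + P.Lam) P.R' iR jR)
    (hc0 : 0 ≤ c) (hc1 : c + 2 * (P.L : ℤ) ≤ P.Lam) (hL : 2 ≤ P.L) (hR : P.R < P.L)
    (hR' : P.R' < P.L) (hX : InSq X (γ i)) (hB : X + P.Lam + 2 * P.N ≤ B)
    (hfit : 4 * (A * (3 * (P.Lam : ℤ)) + P.Lam + 2) ≤ 3 * (P.N : ℝ)) :
    t ∈ goodAt P r₁ k c s (γ i) := by
  intro y hy
  set x := γ i with hx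
  set v := x - pt k c y with hv
  have hlx : lev k x = cx := hc.first
  have hlv : lev k v = cx - c := by rw [hv, lev_sub, hlx, lev_pt]
  have hLL : (P.R : ℤ) < P.L ∧ (P.R' : ℤ) < P.L := by omega
  have hyN : |y| ≤ (P.N : ℤ) := by have := abs_nonneg y; omega
  have hpt : InSq ((P.Lam : ℤ) + |y|) (pt k c y) :=
    inSq_pt hk (by rw [abs_of_nonneg hc0]; omega) le_rfl
  have hbox : ∀ u, InSq P.N (u - v) → InSq B u := fun u hu => by
    have h1 := inSq_sub hX hpt
    exact InSq.mono' (by omega) (inSq_of_sub hu h1)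
  have hneg : lev k (γ i) = cx := hc.first
  have hlt := hw.lt_i
  have hjb := hw.j_lt
  have hij := hc.le
  obtain ⟨hL1, hL2⟩ := Win.cross_mem hk hch.adjOn hw hij ha hb hcL (by omega) (by omega)
  obtain ⟨hR1, hR2⟩ := Win.cross_mem hk hch.adjOn hw hij ha hb hcR (by omega) (by omega)
  have hjLi : jL < i := by
    by_contra hcon
    rcases le_or_gt jL j with h' | h'
    · have := (cross_range hk hch.adjOn hc (by omega) h').1
      have := hcL.last
      omega
    · have := hc.after jL h' (by have := hcL.hi; omega)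
      have := hcL.last
      omega
  have hiiR : i < iR := by
    by_contra hcon
    rcases lt_or_ge iR i with h' | h'
    · have := hc.before iR (by have := hcR.lo; omega) h'
      have := hcR.first
      omega
    · rw [show iR = i by omega] at hcR
      have := hcR.first
      omega
  obtain ⟨a', b', ha', hb', hw'⟩ := exists_win hk hch.adjOn hc (n := (P.L : ℤ)) hLL.1
    (by have := hcL.first; have := hcL.before I₀ le_rfl hcL.lo; omega)
    (by have := hcR.after I₁ hcR.hi le_rfl; omega)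
  have haiL : iL ≤ a' := by
    by_contra hcon
    have := hcL.before a' ha' (by omega)
    have := hw'.lev_a
    omega
  have hbjR : b' ≤ jR := by
    by_contra hcon
    have := hcR.after b' (by omega) hb'
    have := hw'.lev_b
    omega
  have hheavy := heavy_count hk hch hc hw' hL hlow
  refine ⟨fun e => hch.nn _, fun m => γ (m + i) - v, iL - i, jR - i, ?_⟩
  have hadj' : ∀ m, Adj (γ (m + i) - v) (γ (m + i + 1) - v) := fun m => by
    simpa [Adj] using hch.line.adj (m + i)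
  have hwt : ∀ m, wt (shift v t) (γ (m + i) - v) (γ (m + i + 1) - v)
      = wt t (γ (m + i)) (γ (m + i + 1)) := fun m => by
    rw [shift_eq_act, LatSym.wt_act _ t (hadj' m)]
    simp
  refine ⟨?_, ?_, ⟨j - i, ?_⟩, ⟨jL - i, ?_, by omega⟩, ⟨iR - i, ?_, by omega⟩, ?_, ?_, ?_, ?_⟩
  · exact (isBigeodesic_shift v t _).2 (by simpa using hch.line.reindex i)
  · simp [hv, ← hx]
  · rw [lev_pt]
    have h := boxCross_of_cross (ic := i) (N := (P.N : ℤ)) hk hch hc hbox hlv
      (show cx - (cx - c) = c by ring)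
    rwa [sub_self] at h
  · exact boxCross_of_cross hk hch hcL hbox hlv (by ring)
  · exact boxCross_of_cross hk hch hcR hbox hlv (by ring)
  · intro m h1 h2
    have hm1 : a ≤ m + i := by omega
    have hm2 : m + i ≤ b := by omega
    have h := inSq_steps_abs (i₀ := a) (i₁ := b) (fun q _ _ => hch.line.adj q)
      (show a ≤ i by omega) (show i ≤ b by omega) hm1 hm2
    have h' := InSq.mono' (show |m + i - i| ≤ b - a by rw [abs_le]; omega) h
    have h'' := inSq_add hpt h'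
    have e : γ (m + i) - v = pt k c y + (γ (m + i) - γ i) := by
      rw [hv, hx]; abel
    show InSq _ (γ (m + i) - v)
    rw [e]
    refine InSq.mono' ?_ h''
    have hA : ((4 * (b - a + P.Lam + 2) : ℤ) : ℝ) ≤ ((3 * (P.N : ℤ) : ℤ) : ℝ) := by
      push_cast at hlen hfit ⊢
      linarith
    have := Int.cast_le.1 hA
    omega
  · refine ⟨s', hs, fun m h1 h2 => ?_⟩
    have h := htube (m + i) (by omega) (by omega)
    have e1 : lev k (γ (m + i) - v) - lev k (pt k c y) = lev k (γ (m + i)) - lev k x := by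
      rw [lev_sub, lev_pt, hlv, hlx]; ring
    have e2 : ((γ (m + i) - v).2 : ℤ) - (pt k c y).2 = (γ (m + i)).2 - x.2 := by
      rw [hv]; simp only [Prod.snd_sub]; ring
    have e1' : (lev k (γ (m + i) - v) : ℝ) - lev k (pt k c y)
        = (lev k (γ (m + i)) : ℝ) - lev k x := by exact_mod_cast e1
    have e2' : (((γ (m + i) - v).2 : ℤ) : ℝ) - (pt k c y).2 = ((γ (m + i)).2 : ℝ) - x.2 := by
      exact_mod_cast e2
    show |(((γ (m + i) - v).2 : ℤ) : ℝ) - (pt k c y).2 - s' * _| ≤ _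
    rw [e1', e2']
    exact h
  · have h := hwt (-1)
    simp only [neg_add_eq_sub] at h
    rw [show (i - 1 + 1) = i by ring] at h
    show r₁ ≤ wt (shift v t) (γ (-1 + i) - v) (γ (0 + i) - v)
    rw [neg_add_eq_sub, zero_add, h]
    exact hr
  · refine hheavy.trans ?_
    rw [← Set.ncard_image_of_injective _ (sub_left_injective (b := i))]
    refine Set.ncard_le_ncard ?_ ((Set.finite_Ico (iL - i) (jR - i)).subset
      fun m hm => ⟨hm.2.1, hm.2.2.1⟩)
    rintro _ ⟨m, ⟨h1, h2, h3, h4, h5, h6⟩, rfl⟩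
    have e : ∀ q : ℤ, lev k (γ q - v) - lev k (pt k c y) = lev k (γ q) - cx := fun q => by
      rw [lev_sub, lev_pt, hlv]; ring
    have h7 := hwt (m - i)
    simp only [sub_add_cancel] at h7
    refine ⟨show m - i ≠ -1 by omega, show iL - i ≤ m - i by omega,
      show m - i < jR - i by omega, ?_, ?_, ?_⟩
    · show P.r ≤ wt (shift v t) (γ (m - i + i) - v) (γ (m - i + 1 + i) - v)
      rw [sub_add_cancel, show m - i + 1 + i = m + 1 by ring, h7]
      exact h4
    · show |lev k (γ (m - i + i) - v) - lev k (pt k c y)| ≤ _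
      rw [sub_add_cancel, e]; exact h5
    · show |lev k (γ (m - i + 1 + i) - v) - lev k (pt k c y)| ≤ _
      rw [show m - i + 1 + i = m + 1 by ring, e]; exact h6

end Vale.Agent.P158.Mass
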